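import Vale.Agent.P267.H399.LBCalc
import Vale.Agent.P267.H877.Norms
import Vale.Agent.P267.H692.Iface

/-!
# P267, endgame route S (helper739, note 3375): interfaces

`L = E_1`, `α = α_1` its section, `D_1 = {α = 0}`.

* `Sol1`, `Sol2`: `H¹_{-d}(O) = 0`, `H²_{-d}(E_{-1}) = 0` with constants.
* `Coll`: the collar neighbourhood `N` of `supp D_0 ∪ {inner end} ∪ {small disc of C_1}`, with the
  exact function `x`, `α = x • lam`, and the ring chart `κ = (t, x)`.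
* `Coll.inner τ e'`: the part `|x| < e'`, inside of the circle `|t| = τ`.
* `SeriesStatement` (433): `∂̄v = b` is solvable on `Coll.inner τ e'` with bounds.
* `RingStatement` (826, 515): the local input (S1)(a).
-/

set_option linter.unusedVariables false

open scoped Manifold ContDiff ComplexConjugate Matrix Topology
open Set Filter

noncomputable section

namespace Vale.Agent.P267.H739

open Vale.Agent.P267.FL Vale.Agent.P267.XT Vale.Agent.P267.H692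

/-- (S1)(a), FLAT: ring `r₁ < |z 0| < r₂`, `|z 1| < e'`. The constant does not depend on the
(small) loss `e' - e''` in the variable `z 1`. -/
def RingStatement : Prop :=
  ∀ (r₁ s₁ s₂ r₂ e : ℝ), 0 < r₁ → r₁ < s₁ → s₁ < s₂ → s₂ < r₂ → 0 < e → ∃ K : ℝ, 0 < K ∧
    ∀ (e' e'' : ℝ), 0 < e'' → e'' < e' → e' ≤ e → ∀ a : Fin 2 → C2 → ℂ,
      (∀ i, ContDiffOn ℝ ∞ (a i) {z | r₁ < ‖z 0‖ ∧ ‖z 0‖ < r₂ ∧ ‖z 1‖ < e'}) →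
      (∀ z : C2, r₁ < ‖z 0‖ → ‖z 0‖ < r₂ → ‖z 1‖ < e' → dzb 0 (a 1) z = dzb 1 (a 0) z) →
      ∃ u : C2 → ℂ, ContDiff ℝ ∞ u ∧
        (∀ z : C2, s₁ ≤ ‖z 0‖ → ‖z 0‖ ≤ s₂ → ‖z 1‖ ≤ e'' → ∀ i, dzb i u z = a i z) ∧
        ∀ B : ℝ, (∀ z : C2, r₁ < ‖z 0‖ → ‖z 0‖ < r₂ → ‖z 1‖ < e' → ∀ i, ‖a i z‖ ≤ B) →
          ∀ z : C2, ‖z 0‖ ≤ r₂ → ‖z 1‖ ≤ e → ‖u z‖ ≤ K * B

variable {M : Type} [TopologicalSpace M] [ChartedSpace C2 M]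

/-- `H¹_{-d}(O) = 0` with the constant `K` (from `A1` and T0 of the trivial bundle) -/
def Sol1 (D : XTData M) (d K : ℝ) : Prop :=
  ∀ w : M → Fin 2 → ℂ, Reg1 ∞ 0 w → (∀ x, dbar1 0 w x = 0) → ∀ B : ℝ,
    (∀ x, n1 D.h 0 w x ≤ B * Real.exp (-d * D.f x)) →
    ∃ u : M → ℂ, Reg0 ∞ 0 u ∧ (∀ x i, dbar0 0 u x i = w x i) ∧
      ∀ x, ‖u x‖ ≤ K * B * Real.exp (-d * D.f x)

variable {ι : Type} [Fintype ι] [DecidableEq ι]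

/-- `H²_{-d}(L^*) = 0` with the constant `K` (this is T2 for `(L.dual, neg a)`, pointwise) -/
def Sol2 (D : XTData M) (L : LB M ι) (a : M → Fin 2 → ℂ) (d K : ℝ) : Prop :=
  ∀ b : M → EuclideanSpace ℂ ι, L.dual.Sec b → Reg2 ∞ 0 b → ∀ B : ℝ,
    (∀ x, n2 D.h 0 b x ≤ B * Real.exp (-d * D.f x)) →
    ∃ η : M → Fin 2 → EuclideanSpace ℂ ι, L.dual.Sec1 η ∧ Reg1 ∞ 0 η ∧
      (∀ x, L.dual.db1 (neg a) 0 η x = b x) ∧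
      ∀ x, n1 D.h 0 η x ≤ K * B * Real.exp (-d * D.f x)

variable [IsManifold 𝓘(ℂ, C2) ω M]

/-- The collar neighbourhood. -/
structure Coll (D : XTData M) (L : LB M ι) (a : M → Fin 2 → ℂ) (α : M → EuclideanSpace ℂ ι) where
  N : Set M
  isOpen : IsOpen N
  /-- the exact function -/
  x : M → ℂ
  x_at : ∀ p ∈ N, At0 ∞ 0 x p
  x_hol : ∀ p ∈ N, ∀ i, dbar0 0 x p i = 0
  /-- the holomorphic frame of `L` on `N` -/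
  lam : M → EuclideanSpace ℂ ι
  lam_at : ∀ p ∈ N, At0 ∞ 0 lam p
  lam_sec : ∀ p ∈ N, LB.act (L.P p) (lam p) = lam p
  lam_hol : ∀ p ∈ N, ∀ i, L.db0 a 0 lam p i = 0
  lam_bd : ∃ C : ℝ, 0 < C ∧ ∀ p ∈ N, C⁻¹ ≤ ‖lam p‖ ∧ ‖lam p‖ ≤ C
  fac : ∀ p ∈ N, α p = x p • lam p
  e : ℝ
  e_pos : 0 < e
  x_lt : ∀ p ∈ N, ‖x p‖ < e
  /-- the ring chart `κ = (t, x)`, `r₁ < |t| < r₂`, `|x| < e` -/
  κ : OpenPartialHomeomorph M C2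
  κ_mem : κ ∈ IsManifold.maximalAtlas 𝓘(ℂ, C2) ω M
  r₁ : ℝ
  r₂ : ℝ
  r₁_pos : 0 < r₁
  r₁_lt : r₁ < r₂
  κ_source : κ.source ⊆ N
  κ_target : κ.target = {z | r₁ < ‖z 0‖ ∧ ‖z 0‖ < r₂ ∧ ‖z 1‖ < e}
  κ_x : ∀ p ∈ κ.source, κ p 1 = x p
  /-- `N` minus the outer part of the ring is closed up to `|x| → e` -/
  closed_in : ∀ τ e' : ℝ, r₁ < τ → τ < r₂ → e' < e →
    IsClosed {p | p ∈ N ∧ ‖x p‖ ≤ e' ∧ ¬ (p ∈ κ.source ∧ τ < ‖κ p 0‖)}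
  /-- the outer part of the ring is closed in `N` -/
  ring_closed : ∀ τ : ℝ, r₁ < τ → τ < r₂ → ∀ p ∈ N,
    (∃ᶠ q in 𝓝 p, q ∈ κ.source ∧ τ ≤ ‖κ q 0‖) → p ∈ κ.source ∧ τ ≤ ‖κ p 0‖
  /-- `N` is bounded at the outer end -/
  out : ∃ R : ℝ, ∀ p ∈ N, D.f p ≤ R
  /-- `N` contains the inner end, and `x → 0` there -/
  inn : ∀ ε : ℝ, 0 < ε → ∃ R : ℝ, ∀ p, D.f p ≤ R → p ∈ N ∧ p ∉ κ.source ∧ ‖x p‖ < ε

namespace Coll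

variable {D : XTData M} {L : LB M ι} {a : M → Fin 2 → ℂ} {α : M → EuclideanSpace ℂ ι}

/-- the part of `N` with `|x| < e'`, inside of the circle `|t| = τ` of the ring -/
def inner (C : Coll D L a α) (τ e' : ℝ) : Set M :=
  {p | p ∈ C.N ∧ ‖C.x p‖ < e' ∧ ¬ (p ∈ C.κ.source ∧ τ ≤ ‖C.κ p 0‖)}

end Coll

/-- (S1)(b)(c), (S2): `H¹ = 0` near `supp D_0 ∪ {inner end}`, with bounds. -/
def SeriesStatement (D : XTData M) (L : LB M ι) (a : M → Fin 2 → ℂ)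
    (α : M → EuclideanSpace ℂ ι) (d : ℝ) : Prop :=
  ∀ (C : Coll D L a α) (K₁ K₂ τ : ℝ), 0 < d → L.IsHol a → Reg0 ∞ 0 α → L.Sec α →
    (∀ x i, L.db0 a 0 α x i = 0) → Sol1 D d K₁ → Sol2 D L a d K₂ → C.r₁ < τ → τ < C.r₂ →
    ∃ e' K : ℝ, 0 < e' ∧ e' ≤ C.e ∧ ∀ b : M → Fin 2 → ℂ, (∀ p ∈ C.N, At1 ∞ 0 b p) →
      (∀ p ∈ C.N, dbar1 0 b p = 0) → ∀ B : ℝ,
      (∀ p ∈ C.N, n1 D.h 0 b p ≤ B * Real.exp (-d * D.f p)) →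
      ∃ v : M → ℂ, ∀ p ∈ C.inner τ e', At0 ∞ 0 v p ∧ (∀ i, dbar0 0 v p i = b p i) ∧
        ‖v p‖ ≤ K * B * Real.exp (-d * D.f p)

end Vale.Agent.P267.H739
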