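import Vale.Agent.P267.H188.Root
import Vale.Agent.P267.H739.Iface

/-!
# P267, endgame route S (helper739): the geometric input, the collar, the output

Two classes: `(L, a, α)` is class `1` (`E_{l+1}`), `α'` the section of class `0` (`E_l`);
`Y = {α' = 0} = supp D_0`, `φ` = the curve `C_1`, `φ.f₀ 0` = the only point of `C_1 ∩ Y`.

* `Geo`: the geometric input (producers: 188, 406).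
* `RingChart`, `RingThm`: the chart `κ = (t, x)` near the ring `r₁ ≤ |t| ≤ r₂` of `C_1`.
* `CollGeo`, `CollThm`: the collar neighbourhood.
* `PhiOut`: the output (consumers: 209, 62).
-/

set_option linter.unusedVariables false

open scoped Manifold ContDiff ComplexConjugate Matrix Topology
open Set Filter

noncomputable section

namespace Vale.Agent.P267.H739

open Vale.Agent.P267.FL Vale.Agent.P267.XT Vale.Agent.P267.H692 Vale.Agent.P267.H188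
  Vale.Agent.P267.H338

variable {M : Type} [TopologicalSpace M] [ChartedSpace C2 M] [IsManifold 𝓘(ℂ, C2) ω M]
variable {ι ι' : Type} [Fintype ι] [DecidableEq ι] [Fintype ι'] [DecidableEq ι']

/-- THE GEOMETRIC INPUT of route S. -/
structure Geo (D : XTData M) (L : LB M ι) (a : M → Fin 2 → ℂ) (α : M → EuclideanSpace ℂ ι)
    (α' : M → EuclideanSpace ℂ ι') (φ : EmbP1 M) (W : Set M) (lam : M → EuclideanSpace ℂ ι)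
    (x : M → ℂ) : Prop where
  open_W : IsOpen W
  /-- `lam` is a holomorphic frame of `L` on `W` and `α = x • lam` -/
  frame : ∀ p ∈ W, FrameAt L a lam p
  fac : ∀ p ∈ W, α p = x p • lam p
  x_hol : ∀ p ∈ W, HolAt 0 x p
  /-- `D_1 ≥ D_0`: `|α_1| ≤ C |α_0|` locally -/
  x_le : ∀ p ∈ W, ∃ C : ℝ, ∀ᶠ y in 𝓝 p, ‖x y‖ ≤ C * ‖α' y‖
  /-- the inner end -/
  inn : ∃ r C : ℝ, ∀ p, D.f p ≤ r →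
    p ∈ W ∧ ‖x p‖ ≤ C * ‖α' p‖ ∧ 1 ≤ C * ‖lam p‖ ∧ ‖lam p‖ ≤ C
  Y_sub : ∀ p, α' p = 0 → p ∈ W
  /-- the zeros of `x` -/
  zero : ∀ p ∈ W, x p = 0 → α' p = 0 ∨ p ∈ φ.image
  /-- the curve `C_1` -/
  α_img : ∀ p ∈ φ.image, α p = 0
  base : α' (φ.f₀ 0) = 0
  meet : ∀ p ∈ φ.image, α' p = 0 → p = φ.f₀ 0
  dx : ∀ p ∈ W, p ∈ φ.image → α' p ≠ 0 → mfderiv 𝓘(ℂ, C2) 𝓘(ℂ) x p ≠ 0

/-- a chart `κ = (t, x)` near the ring `{φ(t) : r₁ ≤ |t| ≤ r₂}` -/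
structure RingChart (φ : EmbP1 M) (W : Set M) (x : M → ℂ) (r₁ r₂ e : ℝ) (κ : Ch M) : Prop where
  mem : κ ∈ IsManifold.maximalAtlas 𝓘(ℂ, C2) ω M
  source : κ.source ⊆ W
  target : {z : C2 | r₁ ≤ ‖z 0‖ ∧ ‖z 0‖ ≤ r₂ ∧ ‖z 1‖ ≤ e} ⊆ κ.target
  coord : ∀ p ∈ κ.source, κ p 1 = x p
  img : ∀ t : ℂ, r₁ ≤ ‖t‖ → ‖t‖ ≤ r₂ → φ.f₀ t ∈ κ.source ∧ κ (φ.f₀ t) = ![t, 0]

/-- (RING) existence of the chart near the ring -/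
def RingThm (M : Type) [TopologicalSpace M] [ChartedSpace C2 M] [IsManifold 𝓘(ℂ, C2) ω M] :
    Prop :=
  ∀ (φ : EmbP1 M) (W : Set M) (x : M → ℂ), IsOpen W → (∀ p ∈ W, HolAt 0 x p) → φ.f₀ 0 ∈ W →
    (∀ p ∈ W, p ∈ φ.image → x p = 0) →
    (∀ p ∈ W, p ∈ φ.image → p ≠ φ.f₀ 0 → mfderiv 𝓘(ℂ, C2) 𝓘(ℂ) x p ≠ 0) →
    ∃ ρ > (0 : ℝ), ∀ r₁ r₂ : ℝ, 0 < r₁ → r₁ < r₂ → r₂ ≤ ρ →
      (∀ t : ℂ, ‖t‖ ≤ r₂ → φ.f₀ t ∈ W) ∧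
        ∃ (e : ℝ) (κ : Ch M), 0 < e ∧ RingChart φ W x r₁ r₂ e κ

/-- the collar neighbourhood and the two classes of curves -/
structure CollGeo {D : XTData M} {L : LB M ι} {a : M → Fin 2 → ℂ} {α : M → EuclideanSpace ℂ ι}
    (α' : M → EuclideanSpace ℂ ι') (φ : EmbP1 M) (C : Coll D L a α) : Prop where
  x_le : ∀ p ∈ C.N, ∃ K : ℝ, ∀ᶠ y in 𝓝 p, ‖C.x y‖ ≤ K * ‖α' y‖
  x_in : ∃ r K : ℝ, ∀ p, D.f p ≤ r → ‖C.x p‖ ≤ K * ‖α' p‖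
  Y_sub : ∀ p, α' p = 0 → p ∈ C.N
  img : ∀ t : ℂ, ‖t‖ < C.r₂ → φ.f₀ t ∈ C.N
  img_κ : ∀ t : ℂ, C.r₁ < ‖t‖ → ‖t‖ < C.r₂ → φ.f₀ t ∈ C.κ.source ∧ C.κ (φ.f₀ t) = ![t, 0]
  zero : ∀ p ∈ C.N, C.x p = 0 → α' p = 0 ∨ ∃ t : ℂ, ‖t‖ < C.r₂ ∧ p = φ.f₀ t
  α_img : ∀ p ∈ φ.image, α p = 0
  base : α' (φ.f₀ 0) = 0
  meet : ∀ p ∈ φ.image, α' p = 0 → p = φ.f₀ 0
  dx : ∀ t : ℂ, 0 < ‖t‖ → ‖t‖ < C.r₂ → mfderiv 𝓘(ℂ, C2) 𝓘(ℂ) C.x (φ.f₀ t) ≠ 0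

/-- (C4), THE FORM USED: `H¹ = 0` near `supp D_0 ∪ {inner end}`, the form `b` is only given on the
smaller collar `C.inner τ' e₁`. -/
def SeriesThm (D : XTData M) (L : LB M ι) (a : M → Fin 2 → ℂ)
    (α : M → EuclideanSpace ℂ ι) (d : ℝ) : Prop :=
  ∀ (C : Coll D L a α) (τ τ' e₁ : ℝ), C.r₁ < τ → τ < τ' → τ' < C.r₂ → 0 < e₁ → e₁ ≤ C.e →
    ∃ e' K : ℝ, 0 < e' ∧ e' ≤ e₁ ∧ ∀ b : M → Fin 2 → ℂ,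
      (∀ p ∈ C.inner τ' e₁, At1 ∞ 0 b p) → (∀ p ∈ C.inner τ' e₁, dbar1 0 b p = 0) →
      ∀ B : ℝ, 0 ≤ B → (∀ p ∈ C.inner τ' e₁, n1 D.h 0 b p ≤ B * Real.exp (-d * D.f p)) →
      ∃ v : M → ℂ, ∀ p ∈ C.inner τ e', At0 ∞ 0 v p ∧ (∀ i, dbar0 0 v p i = b p i) ∧
        ‖v p‖ ≤ K * B * Real.exp (-d * D.f p)

/-- THE OUTPUT of (T0), (T), (PHI). -/
structure PhiOut (D : XTData M) (α' : M → EuclideanSpace ℂ ι') (φ : EmbP1 M) (x T : M → ℂ)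
    (N₀ : Set M) (s d : ℝ) : Prop where
  s_pos : 0 < s
  open_N : IsOpen N₀
  x_hol : ∀ p ∈ N₀, HolAt 0 x p
  T_hol : ∀ p ∈ N₀, HolAt 0 T p
  Y_sub : ∀ p, α' p = 0 → p ∈ N₀
  /-- the inner end: `|x| ≤ K |α_0|`, `|T| ≤ K |α_0| e^{-d f}` -/
  inn : ∃ r K : ℝ, ∀ p, D.f p ≤ r →
    p ∈ N₀ ∧ ‖x p‖ ≤ K * ‖α' p‖ ∧ ‖T p‖ ≤ K * ‖α' p‖ * Real.exp (-d * D.f p)
  loc : ∀ p ∈ N₀, ∃ K : ℝ, ∀ᶠ y in 𝓝 p, ‖x y‖ ≤ K * ‖α' y‖ ∧ ‖T y‖ ≤ K * ‖α' y‖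
  tend : ∀ ε > (0 : ℝ), ∃ r : ℝ, ∀ p, D.f p ≤ r → ‖x p‖ < ε ∧ ‖T p‖ < ε
  out : ∃ B : ℝ, ∀ p ∈ N₀, D.f p ≤ B
  closed : ∀ s' < s, IsClosed {p | p ∈ N₀ ∧ ‖x p‖ ≤ s' ∧ ‖T p‖ ≤ s'}
  /-- the curve `C_1` is mapped to the axis `x = 0`, isomorphically -/
  curve : ∀ t : ℂ, ‖t‖ < s → φ.f₀ t ∈ N₀ ∧ x (φ.f₀ t) = 0 ∧ T (φ.f₀ t) = t
  fibre : ∀ p ∈ N₀, x p = 0 → ‖T p‖ < s → α' p = 0 ∨ ∃ t : ℂ, ‖t‖ < s ∧ p = φ.f₀ t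
  imm : ∀ t : ℂ, 0 < ‖t‖ → ‖t‖ < s →
    Function.Injective (mfderiv 𝓘(ℂ, C2) 𝓘(ℂ, C2) (fun p => (![x p, T p] : C2)) (φ.f₀ t))

end Vale.Agent.P267.H739
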