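import Vale.Agent.P267.H739.Phi
import Vale.Agent.P267.H701.Ring
import Vale.Agent.P267.H701.Quot
import Vale.Agent.P267.H433.CollEx
import Vale.Agent.P267.H433.SerThm

/-!
# P267 / H739, route S: `Geo → PhiOut`
-/

set_option linter.unusedVariables false

open scoped Manifold ContDiff ComplexConjugate Matrix Topology
open Set Filter

noncomputable section

namespace Vale.Agent.P267.H739

open Vale.Agent.P267.FL Vale.Agent.P267.XT Vale.Agent.P267.H692 Vale.Agent.P267.H338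

variable {M : Type} [TopologicalSpace M] [ChartedSpace C2 M] [IsManifold 𝓘(ℂ, C2) ω M]
variable {ι ι' : Type} [Fintype ι] [DecidableEq ι] [Fintype ι'] [DecidableEq ι']
variable {D : XTData M} {L : LB M ι} {a : M → Fin 2 → ℂ} {α : M → EuclideanSpace ℂ ι}
variable {α' : M → EuclideanSpace ℂ ι'} {φ : EmbP1 M}
variable [T2Space M]
variable {i₀ : ι} {R d d' : ℝ}
variable {L' : LB M ι'} {a' : M → Fin 2 → ℂ} {i₀' : ι'} {R' : ℝ}

/-- **route S, from the geometry to the map `(x, T)`** -/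
theorem exists_phiOut (H : XtCone D L a i₀ R α d d') (H' : XtCone D L' a' i₀' R' α' d d')
    (h1 : ∃ K, 0 ≤ K ∧ Sol1 D d K) (h2 : ∃ K, 0 ≤ K ∧ Sol2 D L a d K)
    {W : Set M} {lam : M → EuclideanSpace ℂ ι} {x : M → ℂ} (G : Geo D L a α α' φ W lam x) :
    ∃ (T : M → ℂ) (N₀ : Set M) (s : ℝ), PhiOut D α' φ x T N₀ s d := by
  obtain ⟨ρ, hρ, hring⟩ := H701.ringThm φ W x G.open_W G.x_hol (G.Y_sub _ G.base)
    (fun p hp hpi => by
      have e1 := G.fac p hp
      rw [G.α_img p hpi] at e1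
      exact (smul_eq_zero.1 e1.symm).resolve_right (G.frame p hp).ne)
    (fun p hp hpi hne => G.dx p hp hpi fun h0 => hne (G.meet p hpi h0))
  obtain ⟨hW, e, κ, he, hκ⟩ := hring (ρ / 2) ρ (half_pos hρ) (half_lt_self hρ) le_rfl
  obtain ⟨C, CG, hCx, hCl, hCW, hCr1, hCr2⟩ :=
    H433.exists_coll H' G hκ (half_pos hρ) (half_lt_self hρ) he hW
  obtain ⟨q, hq⟩ := H701.exists_q H' G.open_W G.x_hol G.x_le
  subst hCx
  obtain ⟨r, K, hin⟩ := G.inn
  have hqb : ∃ r K : ℝ, ∀ p, D.f p ≤ r → ‖q p‖ ≤ K := by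
    refine ⟨r - 1, K, fun p hp => ?_⟩
    have hlt : D.f p < r := by linarith
    refine (hq p (hin p hlt.le).1).2.2.2.2 K ?_
    filter_upwards [(continuous_f D).continuousAt.eventually (gt_mem_nhds hlt)] with y hy
    exact (hin y (le_of_lt hy)).2.1
  exact Coll.exists_phi H H' CG (fun p hp => (hq p (hCW hp)).1) (fun p hp => (hq p (hCW hp)).2.1)
    (fun p hp => (hq p (hCW hp)).2.2.2.1) hqb (H433.seriesThm H h1 h2)

end Vale.Agent.P267.H739
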