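import Vale.Agent.P267.H739.Cut
import Vale.Agent.P267.H739.Geo
import Vale.Agent.P267.H359.St

/-!
# P267 / H739, route S, (T0): the form `β = ρ(|x|) ∂̄(χ(|t|) t)` on the ring
-/

set_option linter.unusedVariables false
set_option linter.unusedSectionVars false

open scoped Manifold ContDiff ComplexConjugate Matrix Topology
open Set Filter

noncomputable section

namespace Vale.Agent.P267.H739

open Vale.Agent.P267.FL Vale.Agent.P267.XT Vale.Agent.P267.H692 Vale.Agent.P267.H338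

variable {M : Type} [TopologicalSpace M] [ChartedSpace C2 M] [IsManifold 𝓘(ℂ, C2) ω M]
variable {ι ι' : Type} [Fintype ι] [DecidableEq ι] [Fintype ι'] [DecidableEq ι']

theorem dbar0_coord {κ : Ch M} (hκ : κ ∈ IsManifold.maximalAtlas 𝓘(ℂ, C2) ω M) {p : M}
    (hp : p ∈ κ.source) (i j : Fin 2) : dbar0 0 (fun q => κ q i) p j = 0 := by
  have h := max_dbar0_eq hκ hp (s := fun q => κ q i) (b := fun _ _ => 0)
    ((s0_coord hκ hp i).of_le (by simp)) fun k => by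
      have h1 : (fun z => κ (κ.symm z) i) =ᶠ[𝓝 (κ p)] fun z => z i := by
        filter_upwards [κ.open_target.mem_nhds (κ.map_source hp)] with z hz
        rw [κ.right_inv hz]
      rw [dzb_congr h1, dzb_of_hol]
      · simp [loc1]
      · exact (ContinuousLinearMap.proj (R := ℂ) (φ := fun _ : Fin 2 => ℂ) i).differentiableAt
  exact h j

namespace Coll

variable {D : XTData M} {L : LB M ι} {a : M → Fin 2 → ℂ} {α : M → EuclideanSpace ℂ ι}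
variable (C : Coll D L a α)

/-- the compact polyring -/
def PR (a₁ a₂ e₂ : ℝ) : Set M :=
  {p | p ∈ C.κ.source ∧ a₁ ≤ ‖C.κ p 0‖ ∧ ‖C.κ p 0‖ ≤ a₂ ∧ ‖C.κ p 1‖ ≤ e₂}

theorem isCompact_PR {a₁ a₂ e₂ : ℝ} (h1 : C.r₁ < a₁) (h2 : a₂ < C.r₂) (h3 : e₂ < C.e) :
    IsCompact (C.PR a₁ a₂ e₂) := by
  have hK : IsCompact {z : C2 | a₁ ≤ ‖z 0‖ ∧ ‖z 0‖ ≤ a₂ ∧ ‖z 1‖ ≤ e₂} := by
    refine Metric.isCompact_of_isClosed_isBounded ?_ ?_
    · have c0 : Continuous fun z : C2 => ‖z 0‖ := (continuous_apply 0).norm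
      have c1 : Continuous fun z : C2 => ‖z 1‖ := (continuous_apply 1).norm
      exact (isClosed_le continuous_const c0).inter
        ((isClosed_le c0 continuous_const).inter (isClosed_le c1 continuous_const))
    · refine (Metric.isBounded_closedBall (x := (0 : C2)) (r := max (max a₂ e₂) 0)).subset ?_
      rintro z ⟨-, hz0, hz1⟩
      rw [mem_closedBall_zero_iff]
      refine (pi_norm_le_iff_of_nonneg (le_max_right _ _)).2 fun i => ?_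
      fin_cases i
      · exact hz0.trans ((le_max_left _ _).trans (le_max_left _ _))
      · exact hz1.trans ((le_max_right _ _).trans (le_max_left _ _))
  have hsub : {z : C2 | a₁ ≤ ‖z 0‖ ∧ ‖z 0‖ ≤ a₂ ∧ ‖z 1‖ ≤ e₂} ⊆ C.κ.target := by
    rw [C.κ_target]
    rintro z ⟨ha, hb, hc⟩
    exact ⟨h1.trans_le ha, hb.trans_lt h2, hc.trans_lt h3⟩
  have : C.PR a₁ a₂ e₂ = C.κ.symm '' {z : C2 | a₁ ≤ ‖z 0‖ ∧ ‖z 0‖ ≤ a₂ ∧ ‖z 1‖ ≤ e₂} := by
    ext p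
    constructor
    · rintro ⟨hp, ha⟩
      exact ⟨C.κ p, ha, C.κ.left_inv hp⟩
    · rintro ⟨z, hz, rfl⟩
      refine ⟨C.κ.map_target (hsub hz), ?_⟩
      rw [C.κ.right_inv (hsub hz)]
      exact hz
  rw [this]
  exact hK.image_of_continuousOn (C.κ.continuousOn_symm.mono hsub)

/-- `χ(|t|) t` -/
def Gf (a₁ a₂ : ℝ) (p : M) : ℂ :=
  ((stp (a₁ ^ 2) (a₂ ^ 2) (‖C.κ p 0‖ ^ 2) : ℝ) : ℂ) * C.κ p 0

theorem s0_Gf (a₁ a₂ : ℝ) {p : M} (hp : p ∈ C.κ.source) : S0 (C.Gf a₁ a₂) p :=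
  (S0.stp_sq (C.s0κ hp 0) _ _).mul (C.s0κ hp 0)

open Classical in
/-- the form `β` -/
def β (a₁ a₂ e₁ e₂ : ℝ) (p : M) (i : Fin 2) : ℂ :=
  if p ∈ C.κ.source then
    ((stp (e₁ ^ 2) (e₂ ^ 2) (‖C.x p‖ ^ 2) : ℝ) : ℂ) * dbar0 0 (C.Gf a₁ a₂) p i
  else 0

variable {C} {a₁ a₂ e₁ e₂ : ℝ}

theorem Gf_eventually_inner (h1 : 0 < a₁) (h2 : a₁ < a₂) {p : M} (hp : p ∈ C.κ.source)
    (h : ‖C.κ p 0‖ < a₁) : C.Gf a₁ a₂ =ᶠ[𝓝 p] fun q => C.κ q 0 := by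
  filter_upwards [(C.cont_κ hp).eventually (gt_mem_nhds h)] with q hq
  rw [Gf, stp_one (pow_lt_pow_left₀ h2 h1.le (by norm_num))
    (pow_le_pow_left₀ (norm_nonneg _) hq.le 2), Complex.ofReal_one, one_mul]

theorem Gf_eventually_outer (h1 : 0 < a₁) (h2 : a₁ < a₂) {p : M} (hp : p ∈ C.κ.source)
    (h : a₂ < ‖C.κ p 0‖) : C.Gf a₁ a₂ =ᶠ[𝓝 p] fun _ => 0 := by
  filter_upwards [(C.cont_κ hp).eventually (lt_mem_nhds h)] with q hq
  rw [Gf, stp_zero (pow_lt_pow_left₀ h2 h1.le (by norm_num))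
    (pow_le_pow_left₀ (by linarith) hq.le 2), Complex.ofReal_zero, zero_mul]

theorem β_zero (h1 : 0 < a₁) (h2 : a₁ < a₂) (he1 : 0 < e₁) (he2 : e₁ < e₂) {p : M}
    (hp : p ∉ C.PR a₁ a₂ e₂) : C.β a₁ a₂ e₁ e₂ p = 0 := by
  classical
  funext i
  unfold β
  by_cases hs : p ∈ C.κ.source
  swap
  · rw [if_neg hs]; rfl
  rw [if_pos hs]
  by_cases c1 : a₁ ≤ ‖C.κ p 0‖
  swap
  · rw [H692.dbar0_congr (Gf_eventually_inner h1 h2 hs (not_le.1 c1)), dbar0_coord C.κ_mem hs, mul_zero]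
    rfl
  by_cases c2 : ‖C.κ p 0‖ ≤ a₂
  swap
  · rw [H692.dbar0_congr (Gf_eventually_outer h1 h2 hs (not_le.1 c2)), H692.dbar0_const, mul_zero]
    rfl
  have c3 : e₂ < ‖C.x p‖ := by
    rw [← C.κ_x p hs]
    by_contra hcon
    exact hp ⟨hs, c1, c2, not_lt.1 hcon⟩
  rw [stp_zero (pow_lt_pow_left₀ he2 he1.le (by norm_num))
    (pow_le_pow_left₀ (by linarith) c3.le 2), Complex.ofReal_zero, zero_mul]
  rfl

theorem β_eq {p : M} (hp : p ∈ C.κ.source) : C.β a₁ a₂ e₁ e₂ =ᶠ[𝓝 p] fun q i =>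
    ((stp (e₁ ^ 2) (e₂ ^ 2) (‖C.x q‖ ^ 2) : ℝ) : ℂ) * dbar0 0 (C.Gf a₁ a₂) q i := by
  classical
  filter_upwards [C.κ.open_source.mem_nhds hp] with q hq
  funext i
  rw [β, if_pos hq]

theorem β_eq' (he1 : 0 < e₁) (he2 : e₁ < e₂) {p : M} (hp : p ∈ C.κ.source) (hx : ‖C.x p‖ < e₁) :
    C.β a₁ a₂ e₁ e₂ =ᶠ[𝓝 p] dbar0 0 (C.Gf a₁ a₂) := by
  have hc := (C.cont_x (C.κ_source hp)).norm.eventually (gt_mem_nhds hx)
  filter_upwards [β_eq hp, hc] with q hq hq'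
  rw [hq]
  funext i
  rw [stp_one (pow_lt_pow_left₀ he2 he1.le (by norm_num))
    (pow_le_pow_left₀ (norm_nonneg _) hq'.le 2), Complex.ofReal_one, one_mul]

section

variable [T2Space M]

theorem β_eventually_zero (h0 : C.r₁ < a₁) (h2 : a₁ < a₂) (h3 : a₂ < C.r₂) (he1 : 0 < e₁)
    (he2 : e₁ < e₂) (he3 : e₂ < C.e) {p : M} (hp : p ∉ C.PR a₁ a₂ e₂) :
    C.β a₁ a₂ e₁ e₂ =ᶠ[𝓝 p] fun _ _ => 0 := by
  have hr := C.r₁_pos
  filter_upwards [(C.isCompact_PR h0 h3 he3).isClosed.isOpen_compl.mem_nhds hp] with q hq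
  exact β_zero (hr.trans h0) h2 he1 he2 hq

theorem β_reg (h0 : C.r₁ < a₁) (h2 : a₁ < a₂) (h3 : a₂ < C.r₂) (he1 : 0 < e₁)
    (he2 : e₁ < e₂) (he3 : e₂ < C.e) : Reg1 ∞ 0 (C.β a₁ a₂ e₁ e₂) := by
  refine reg1.2 fun p => ?_
  by_cases hs : p ∈ C.κ.source
  · exact (S1.mul (S0.stp_sq (C.s0x (C.κ_source hs)) _ _) (C.s0_Gf a₁ a₂ hs).dbar).congr
      (β_eq hs).symm
  · exact (S1.zero p).congr (β_eventually_zero h0 h2 h3 he1 he2 he3 fun h => hs h.1).symm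

theorem β_compact (h0 : C.r₁ < a₁) (h2 : a₁ < a₂) (h3 : a₂ < C.r₂) (he1 : 0 < e₁)
    (he2 : e₁ < e₂) (he3 : e₂ < C.e) : HasCompactSupport (C.β a₁ a₂ e₁ e₂) := by
  have hr := C.r₁_pos
  refine HasCompactSupport.intro (C.isCompact_PR h0 h3 he3) fun p hp => ?_
  exact β_zero (hr.trans h0) h2 he1 he2 hp

theorem dβ_zero (h0 : C.r₁ < a₁) (h2 : a₁ < a₂) (h3 : a₂ < C.r₂) (he1 : 0 < e₁)
    (he2 : e₁ < e₂) (he3 : e₂ < C.e) {p : M} (hp : p ∈ C.κ.source → ‖C.x p‖ < e₁) :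
    dbar1 0 (C.β a₁ a₂ e₁ e₂) p = 0 := by
  by_cases hs : p ∈ C.κ.source
  · rw [H692.dbar1_congr (β_eq' he1 he2 hs (hp hs)), dbar1_dbar0 (C.s0_Gf a₁ a₂ hs)]
  · rw [H692.dbar1_congr (β_eventually_zero h0 h2 h3 he1 he2 he3 fun h => hs h.1), H692.dbar1_zero]

/-- `∂̄β` is supported off `{α = 0}` -/
theorem dβ_supp (h0 : C.r₁ < a₁) (h2 : a₁ < a₂) (h3 : a₂ < C.r₂) (he1 : 0 < e₁)
    (he2 : e₁ < e₂) (he3 : e₂ < C.e) :
    ∀ p ∈ tsupport (dbar1 0 (C.β a₁ a₂ e₁ e₂)), α p ≠ 0 := by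
  intro p hp h0'
  have hsub : tsupport (dbar1 0 (C.β a₁ a₂ e₁ e₂)) ⊆ C.PR a₁ a₂ e₂ := by
    refine closure_minimal (fun q hq => ?_) (C.isCompact_PR h0 h3 he3).isClosed
    by_contra hcon
    exact hq (by rw [H692.dbar1_congr (β_eventually_zero h0 h2 h3 he1 he2 he3 hcon), H692.dbar1_zero])
  have hs := (hsub hp).1
  have hN := C.κ_source hs
  have hx0 : C.x p = 0 := by
    obtain ⟨K, hK, hb⟩ := C.lam_bd
    have h1 := C.fac p hN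
    rw [h0'] at h1
    rcases smul_eq_zero.1 h1.symm with h | h
    · exact h
    · exfalso
      have := (hb p hN).1
      rw [h, norm_zero] at this
      exact absurd (inv_pos.2 hK) (not_lt.2 this)
  have : p ∉ tsupport (dbar1 0 (C.β a₁ a₂ e₁ e₂)) := by
    rw [notMem_tsupport_iff_eventuallyEq]
    have hc := (C.cont_x hN).norm.eventually
      (gt_mem_nhds (show ‖C.x p‖ < e₁ by rw [hx0, norm_zero]; exact he1))
    filter_upwards [hc] with q hq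
    exact dβ_zero h0 h2 h3 he1 he2 he3 fun _ => hq
  exact this hp

end

end Coll

end Vale.Agent.P267.H739
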