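import Vale.Agent.P267.H399.LBCalc
import Mathlib.Geometry.Manifold.ContMDiff.Atlas

/-!
# P267 / H739: charts of the MAXIMAL atlas

The objects of H399 (`loc0`, `loc1`, `loc2`, `dbar0`, `dbar1`, `At0`, ...) only use the preferred
charts `chartAt`, so all lemmas of H399 for charts of the atlas hold for charts of the maximal atlas.
-/

set_option linter.unusedVariables false
set_option linter.unusedSectionVars false

open scoped Manifold ContDiff ComplexConjugate Matrix Topology
open Set Filter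

noncomputable section

namespace Vale.Agent.P267.H739

open Vale.Agent.P267.FL

variable {X : Type*} [TopologicalSpace X] [cs : ChartedSpace C2 X] [im : IsManifold 𝓘(ℂ, C2) ω X]
variable {V : Type*} [NormedAddCommGroup V] [NormedSpace ℂ V]

/-- the same preferred charts, but the atlas is the maximal one -/
@[reducible] def maxCS (X : Type*) [TopologicalSpace X] [ChartedSpace C2 X]
    [IsManifold 𝓘(ℂ, C2) ω X] : ChartedSpace C2 X where
  atlas := IsManifold.maximalAtlas 𝓘(ℂ, C2) ω X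
  chartAt := chartAt C2
  mem_chart_source := mem_chart_source C2
  chart_mem_atlas := IsManifold.chart_mem_maximalAtlas

theorem maxIM : @IsManifold ℂ _ C2 _ _ C2 _ 𝓘(ℂ, C2) ω X _ (maxCS X) :=
  @IsManifold.mk' ℂ _ C2 _ _ C2 _ 𝓘(ℂ, C2) ω X _ (maxCS X)
    (@HasGroupoid.mk C2 _ X _ (maxCS X) (contDiffGroupoid ω 𝓘(ℂ, C2)) fun {_ _} he he' =>
      StructureGroupoid.compatible_of_mem_maximalAtlas (H := C2) (M := X) (G := contDiffGroupoid ω 𝓘(ℂ, C2))
        he he')

variable {e : Ch X} (he : e ∈ IsManifold.maximalAtlas 𝓘(ℂ, C2) ω X)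
include he

theorem max_loc0_iff {n : WithTop ℕ∞} {κ : ℤ} {s : X → V} {x : X} (hx : x ∈ e.source) :
    At0 n κ s x ↔ ContDiffAt ℝ n (loc0 κ e s) (e x) :=
  ⟨fun h => @At0.chart X _ (maxCS X) V _ _ maxIM n κ s x h e he hx,
    fun h => @at0_of_chart X _ (maxCS X) V _ _ maxIM n κ s x e he hx h⟩

theorem max_loc1_iff {n : WithTop ℕ∞} {κ : ℤ} {s : X → Fin 2 → V} {x : X} (hx : x ∈ e.source) :
    At1 n κ s x ↔ ContDiffAt ℝ n (loc1 κ e s) (e x) :=
  ⟨fun h => @At1.chart X _ (maxCS X) V _ _ maxIM n κ s x h e he hx,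
    fun h => @at1_of_chart X _ (maxCS X) V _ _ maxIM n κ s x e he hx h⟩

theorem max_loc2_iff {n : WithTop ℕ∞} {κ : ℤ} {s : X → V} {x : X} (hx : x ∈ e.source) :
    At2 n κ s x ↔ ContDiffAt ℝ n (loc2 κ e s) (e x) :=
  ⟨fun h => @At2.chart X _ (maxCS X) V _ _ maxIM n κ s x h e he hx,
    fun h => @at2_of_chart X _ (maxCS X) V _ _ maxIM n κ s x e he hx h⟩

theorem max_loc1_dbar0 {κ : ℤ} {z : C2} (hz : z ∈ e.target)
    {s : X → V} (h : DifferentiableAt ℝ (loc0 κ e s) z) (i : Fin 2) :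
    loc1 κ e (dbar0 κ s) z i = dzb i (loc0 κ e s) z :=
  @loc1_dbar0 X _ (maxCS X) V _ _ maxIM κ e he z hz s h i

theorem max_loc2_dbar1 {κ : ℤ} {z : C2} (hz : z ∈ e.target)
    {a : X → Fin 2 → V} (h : DifferentiableAt ℝ (loc1 κ e a) z) :
    loc2 κ e (dbar1 κ a) z = dzb 0 (fun y => loc1 κ e a y 1) z -
      dzb 1 (fun y => loc1 κ e a y 0) z :=
  @loc2_dbar1 X _ (maxCS X) V _ _ maxIM κ e he z hz a h

theorem max_jac_det_ne_zero {x : X} (hx : x ∈ e.source) : (jac e x).det ≠ 0 :=
  @jac_det_ne_zero X _ (maxCS X) maxIM e he x hx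

/-- the components in the chart `e` determine the form -/
theorem max_loc1_inj {x : X} (hx : x ∈ e.source) {a b : X → Fin 2 → V}
    (h : ∀ i, loc1 0 e a (e x) i = loc1 0 e b (e x) i) : a x = b x := by
  have hdet := max_jac_det_ne_zero he hx
  set J := jac e x with hJ
  have e1 : ∀ (c : X → Fin 2 → V) i, loc1 0 e c (e x) i = ∑ p, conj (J p i) • c x p := by
    intro c i
    rw [loc1, e.left_inv hx, zpow_zero, one_smul]
  have h2 : ∀ i, ∑ p, conj (J p i) • (a x p - b x p) = 0 := by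
    intro i
    have := h i
    rw [e1, e1] at this
    simp only [smul_sub, Finset.sum_sub_distrib]
    rw [this, sub_self]
  have hdc : conj J.det ≠ 0 := by simpa using hdet
  funext k
  rw [← sub_eq_zero]
  have h3 := h2 0
  have h4 := h2 1
  rw [Fin.sum_univ_two] at h3 h4
  have hd : conj J.det = conj (J 0 0) * conj (J 1 1) - conj (J 0 1) * conj (J 1 0) := by
    rw [Matrix.det_fin_two, map_sub, map_mul, map_mul]
  have h5 : conj J.det • (a x 0 - b x 0) = 0 := by
    have : conj J.det • (a x 0 - b x 0) =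
        conj (J 1 1) • (conj (J 0 0) • (a x 0 - b x 0) + conj (J 1 0) • (a x 1 - b x 1)) -
        conj (J 1 0) • (conj (J 0 1) • (a x 0 - b x 0) + conj (J 1 1) • (a x 1 - b x 1)) := by
      rw [hd]; module
    rw [this, h3, h4, smul_zero, smul_zero, sub_zero]
  have h6 : conj J.det • (a x 1 - b x 1) = 0 := by
    have : conj J.det • (a x 1 - b x 1) =
        conj (J 0 0) • (conj (J 0 1) • (a x 0 - b x 0) + conj (J 1 1) • (a x 1 - b x 1)) -
        conj (J 0 1) • (conj (J 0 0) • (a x 0 - b x 0) + conj (J 1 0) • (a x 1 - b x 1)) := by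
      rw [hd]; module
    rw [this, h3, h4, smul_zero, smul_zero, sub_zero]
  fin_cases k
  · exact (smul_eq_zero.1 h5).resolve_left hdc
  · exact (smul_eq_zero.1 h6).resolve_left hdc

/-- `∂̄s = b` near a point may be tested in the chart `e` -/
theorem max_dbar0_eq {x : X} (hx : x ∈ e.source) {s : X → V} (hs : At0 1 0 s x)
    {b : X → Fin 2 → V} (h : ∀ i, dzb i (fun z => s (e.symm z)) (e x) = loc1 0 e b (e x) i) :
    ∀ i, dbar0 0 s x i = b x i := by
  have h1 : DifferentiableAt ℝ (loc0 0 e s) (e x) :=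
    ((max_loc0_iff he hx).1 hs).differentiableAt (by simp)
  have h2 := max_loc1_inj he hx (a := dbar0 0 s) (b := b) fun i => by
    rw [max_loc1_dbar0 he (e.map_source hx) h1, ← h i]
    congr 1
    funext z
    simp [loc0]
  intro i
  rw [h2]

end Vale.Agent.P267.H739
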