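import Vale.Agent.P267.H739.Iface
import Vale.Agent.P267.H739.MaxAt
import Vale.Agent.P267.H692.Cone2

/-!
# P267 / H739, route S: cut-off functions on a collar neighbourhood
-/

set_option linter.unusedVariables false
set_option linter.unusedSectionVars false

open scoped Manifold ContDiff ComplexConjugate Matrix Topology
open Set Filter

noncomputable section

namespace Vale.Agent.P267.H739

open Vale.Agent.P267.FL Vale.Agent.P267.XT Vale.Agent.P267.H692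

/-! ### a smooth step: `1` for `r ≤ a`, `0` for `b ≤ r` -/

/-- smooth step: `1` for `r ≤ a`, `0` for `b ≤ r` -/
def stp (a b r : ℝ) : ℝ := 1 - Real.smoothTransition ((r - a) / (b - a))

theorem stp_one {a b r : ℝ} (hab : a < b) (h : r ≤ a) : stp a b r = 1 := by
  rw [stp, Real.smoothTransition.zero_of_nonpos, sub_zero]
  exact div_nonpos_of_nonpos_of_nonneg (by linarith) (by linarith)

theorem stp_zero {a b r : ℝ} (hab : a < b) (h : b ≤ r) : stp a b r = 0 := by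
  rw [stp, Real.smoothTransition.one_of_one_le, sub_self]
  rw [one_le_div (by linarith)]; linarith

theorem stp_nonneg (a b r : ℝ) : 0 ≤ stp a b r := by
  have := Real.smoothTransition.le_one ((r - a) / (b - a))
  rw [stp]; linarith

theorem stp_le_one (a b r : ℝ) : stp a b r ≤ 1 := by
  have := Real.smoothTransition.nonneg ((r - a) / (b - a))
  rw [stp]; linarith

theorem contDiff_stp (a b : ℝ) : ContDiff ℝ ∞ (stp a b) :=
  contDiff_const.sub (Real.smoothTransition.contDiff.comp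
    ((contDiff_id.sub contDiff_const).div_const _))

variable {M : Type} [TopologicalSpace M] [ChartedSpace C2 M]
variable {ι : Type} [Fintype ι] [DecidableEq ι]

/-- `|u|²` composed with a smooth function -/
theorem S0.stp_sq {u : M → ℂ} {x : M} (hu : S0 u x) (a b : ℝ) :
    S0 (fun y => ((stp a b (‖u y‖ ^ 2) : ℝ) : ℂ)) x := by
  refine S0.real_comp (f := fun y => ‖u y‖ ^ 2) ?_ (contDiff_stp a b)
  refine (hu.mul hu.conj).congr (Eventually.of_forall fun y => ?_)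
  show u y * conj (u y) = ((‖u y‖ ^ 2 : ℝ) : ℂ)
  rw [Complex.mul_conj, Complex.normSq_eq_norm_sq]

variable [IsManifold 𝓘(ℂ, C2) ω M]

/-- coordinates of a chart of the maximal atlas are smooth and holomorphic -/
theorem s0_coord {κ : Ch M} (hκ : κ ∈ IsManifold.maximalAtlas 𝓘(ℂ, C2) ω M) {p : M}
    (hp : p ∈ κ.source) (i : Fin 2) : S0 (fun q => κ q i) p := by
  refine (max_loc0_iff hκ hp (n := ∞) (κ := 0)).2 ?_
  have h1 : loc0 0 κ (fun q => κ q i) =ᶠ[𝓝 (κ p)] fun z => z i := by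
    filter_upwards [κ.open_target.mem_nhds (κ.map_source hp)] with z hz
    rw [LB.loc0_zero]
    show κ (κ.symm z) i = z i
    rw [κ.right_inv hz]
  exact (contDiff_apply ℝ ℂ i).contDiffAt.congr_of_eventuallyEq h1

namespace Coll

variable {D : XTData M} {L : LB M ι} {a : M → Fin 2 → ℂ} {α : M → EuclideanSpace ℂ ι}
variable (C : Coll D L a α)

theorem s0x {p : M} (hp : p ∈ C.N) : S0 C.x p := C.x_at p hp

theorem cont_x {p : M} (hp : p ∈ C.N) : ContinuousAt C.x p := (C.s0x hp).continuousAt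

theorem s0κ {p : M} (hp : p ∈ C.κ.source) (i : Fin 2) : S0 (fun q => C.κ q i) p :=
  s0_coord C.κ_mem hp i

theorem cont_κ {p : M} (hp : p ∈ C.κ.source) : ContinuousAt (fun q => ‖C.κ q 0‖) p :=
  (C.s0κ hp 0).continuousAt.norm

theorem lt_κ {p : M} (hp : p ∈ C.κ.source) : C.r₁ < ‖C.κ p 0‖ ∧ ‖C.κ p 0‖ < C.r₂ := by
  have h := C.κ.map_source hp
  rw [C.κ_target] at h
  exact ⟨h.1, h.2.1⟩

/-- outside of the outer part of the ring, nearby points are outside too -/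
theorem eventually_not_ring {τ : ℝ} (h1 : C.r₁ < τ) (h2 : τ < C.r₂) {p : M} (hp : p ∈ C.N)
    (hr : ¬ (p ∈ C.κ.source ∧ τ ≤ ‖C.κ p 0‖)) :
    ∀ᶠ q in 𝓝 p, ¬ (q ∈ C.κ.source ∧ τ ≤ ‖C.κ q 0‖) := by
  by_contra hcon
  exact hr (C.ring_closed τ h1 h2 p hp hcon)

theorem isOpen_inner {τ : ℝ} (h1 : C.r₁ < τ) (h2 : τ < C.r₂) (e' : ℝ) :
    IsOpen (C.inner τ e') := by
  rw [isOpen_iff_mem_nhds]
  rintro p ⟨hp, hx, hr⟩
  filter_upwards [C.isOpen.mem_nhds hp, (C.cont_x hp).norm.eventually (gt_mem_nhds hx),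
    C.eventually_not_ring h1 h2 hp hr] with q hq1 hq2 hq3
  exact ⟨hq1, hq2, hq3⟩

/-- the support set of the cut-off function -/
def S (τ e' : ℝ) : Set M := {p | p ∈ C.N ∧ ‖C.x p‖ ≤ e' ∧ ¬ (p ∈ C.κ.source ∧ τ < ‖C.κ p 0‖)}

open Classical in
/-- the cut-off function: `1` on `inner τ₁ e₁`, `0` off `S τ₂ e₂` -/
def cut (τ₁ τ₂ e₁ e₂ : ℝ) (p : M) : ℂ :=
  if p ∈ C.N then
    ((stp (e₁ ^ 2) (e₂ ^ 2) (‖C.x p‖ ^ 2) : ℝ) : ℂ) *
      (if p ∈ C.κ.source then ((stp (τ₁ ^ 2) (τ₂ ^ 2) (‖C.κ p 0‖ ^ 2) : ℝ) : ℂ) else 1)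
  else 0

variable {C} {τ₁ τ₂ e₁ e₂ : ℝ}

theorem cut_zero (h1 : C.r₁ < τ₁) (h2 : τ₁ < τ₂) (he1 : 0 < e₁) (he2 : e₁ < e₂) {p : M}
    (hp : p ∉ C.S τ₂ e₂) : C.cut τ₁ τ₂ e₁ e₂ p = 0 := by
  classical
  have hr := C.r₁_pos
  unfold cut
  by_cases hN : p ∈ C.N
  swap
  · rw [if_neg hN]
  rw [if_pos hN]
  by_cases hx : ‖C.x p‖ ≤ e₂
  swap
  · rw [stp_zero, Complex.ofReal_zero, zero_mul]
    · exact pow_lt_pow_left₀ he2 he1.le (by norm_num)
    · exact pow_le_pow_left₀ (by linarith) (not_le.1 hx).le 2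
  have h3 : p ∈ C.κ.source ∧ τ₂ < ‖C.κ p 0‖ := by
    by_contra hcon
    exact hp ⟨hN, hx, hcon⟩
  rw [if_pos h3.1, stp_zero (a := τ₁ ^ 2), Complex.ofReal_zero, mul_zero]
  · exact pow_lt_pow_left₀ h2 (by linarith) (by norm_num)
  · exact pow_le_pow_left₀ (by linarith) h3.2.le 2

theorem cut_one (h1 : C.r₁ < τ₁) (h2 : τ₁ < τ₂) (he1 : 0 < e₁) (he2 : e₁ < e₂) {p : M}
    (hp : p ∈ C.S τ₁ e₁) : C.cut τ₁ τ₂ e₁ e₂ p = 1 := by
  classical
  have hr := C.r₁_pos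
  obtain ⟨hN, hx, hk⟩ := hp
  unfold cut
  rw [if_pos hN, stp_one, Complex.ofReal_one, one_mul]
  · by_cases hs : p ∈ C.κ.source
    · rw [if_pos hs, stp_one, Complex.ofReal_one]
      · exact pow_lt_pow_left₀ h2 (by linarith) (by norm_num)
      · have : ‖C.κ p 0‖ ≤ τ₁ := not_lt.1 fun h => hk ⟨hs, h⟩
        exact pow_le_pow_left₀ (norm_nonneg _) this 2
    · rw [if_neg hs]
  · exact pow_lt_pow_left₀ he2 he1.le (by norm_num)
  · exact pow_le_pow_left₀ (norm_nonneg _) hx 2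

theorem norm_cut_le (p : M) : ‖C.cut τ₁ τ₂ e₁ e₂ p‖ ≤ 1 := by
  classical
  unfold cut
  have h : ∀ a b r : ℝ, ‖((stp a b r : ℝ) : ℂ)‖ ≤ 1 := fun a b r => by
    rw [Complex.norm_real, Real.norm_of_nonneg (stp_nonneg _ _ _)]
    exact stp_le_one _ _ _
  split_ifs with h1 h2
  · rw [norm_mul]
    exact mul_le_one₀ (h _ _ _) (norm_nonneg _) (h _ _ _)
  · rw [mul_one]; exact h _ _ _
  · simp

theorem isClosed_S {τ e' : ℝ} (h1 : C.r₁ < τ) (h2 : τ < C.r₂) (he : e' < C.e) :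
    IsClosed (C.S τ e') := C.closed_in τ e' h1 h2 he

theorem s0_cut (h1 : C.r₁ < τ₁) (h2 : τ₁ < τ₂) (h3 : τ₂ < C.r₂) (he1 : 0 < e₁) (he2 : e₁ < e₂)
    (he3 : e₂ < C.e) (p : M) : S0 (C.cut τ₁ τ₂ e₁ e₂) p := by
  classical
  by_cases hp : p ∈ C.S τ₂ e₂
  swap
  · refine (S0.const (0 : ℂ) p).congr ?_
    filter_upwards [(isClosed_S (h1.trans h2) h3 he3).isOpen_compl.mem_nhds hp] with q hq
    exact (cut_zero h1 h2 he1 he2 hq).symm
  have hN := hp.1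
  have hx : S0 (fun y => ((stp (e₁ ^ 2) (e₂ ^ 2) (‖C.x y‖ ^ 2) : ℝ) : ℂ)) p :=
    S0.stp_sq (C.s0x hN) _ _
  by_cases hs : p ∈ C.κ.source
  · have hk : S0 (fun y => ((stp (τ₁ ^ 2) (τ₂ ^ 2) (‖C.κ y 0‖ ^ 2) : ℝ) : ℂ)) p :=
      S0.stp_sq (C.s0κ hs 0) _ _
    refine (hx.mul hk).congr ?_
    filter_upwards [C.isOpen.mem_nhds hN, C.κ.open_source.mem_nhds hs] with q hq1 hq2
    simp only [cut, if_pos hq1, if_pos hq2]
  · refine hx.congr ?_
    have hev := C.eventually_not_ring h1 (h2.trans h3) hN (fun h => hs h.1)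
    filter_upwards [C.isOpen.mem_nhds hN, hev] with q hq1 hq2
    have hr := C.r₁_pos
    simp only [cut, if_pos hq1]
    by_cases hqs : q ∈ C.κ.source
    · rw [if_pos hqs, stp_one (a := τ₁ ^ 2), Complex.ofReal_one, mul_one]
      · exact pow_lt_pow_left₀ h2 (by linarith) (by norm_num)
      · have : ‖C.κ q 0‖ ≤ τ₁ := le_of_lt (not_le.1 fun h => hq2 ⟨hqs, h⟩)
        exact pow_le_pow_left₀ (norm_nonneg _) this 2
    · rw [if_neg hqs, mul_one]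

theorem cut_eventually_one (h1 : C.r₁ < τ₁) (h2 : τ₁ < τ₂) (h3 : τ₂ < C.r₂) (he1 : 0 < e₁)
    (he2 : e₁ < e₂) {p : M} (hp : p ∈ C.inner τ₁ e₁) :
    C.cut τ₁ τ₂ e₁ e₂ =ᶠ[𝓝 p] fun _ => 1 := by
  filter_upwards [(C.isOpen_inner h1 (h2.trans h3) e₁).mem_nhds hp] with q hq
  exact cut_one h1 h2 he1 he2 ⟨hq.1, hq.2.1.le, fun h => hq.2.2 ⟨h.1, h.2.le⟩⟩

theorem inner_subset_S {τ e' : ℝ} : C.inner τ e' ⊆ C.S τ e' :=
  fun q hq => ⟨hq.1, hq.2.1.le, fun h => hq.2.2 ⟨h.1, h.2.le⟩⟩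

end Coll

end Vale.Agent.P267.H739
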