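import Vale.Agent.P267.H62.EndS
import Vale.Agent.P267.H406.Geo
import Vale.Agent.P267.H457.Trans
import Vale.Agent.P267.H739.Out

/-!
# P267, route S: `LineX.EndThm` — the end of the proof of the Global Spherical Shell conjecture from
the structure theorem for the curves (`Chain`) and the exact frames (`ExactFrames`).
-/

open Set Filter Metric Topology
open scoped Manifold ContDiff
open Vale.Agent.P272.K (Cm)
open Vale.Agent.P267.FL Vale.Agent.P267.H158 Vale.Agent.P267.XT Vale.Agent.P267.H338
open Vale.Agent.P267.LineX Vale.Agent.P267.H757 Vale.Agent.P267.H692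

noncomputable section

namespace Vale.Agent.P267.H739

theorem endThm : EndThm := by
  intro X _ _ _ _ _ _ n O Ch hE
  have : LocallyConnectedSpace X := ChartedSpace.locallyConnectedSpace (Cm 2) X
  have : ConnectedSpace (Cov O.B.hh) := Cov.connectedSpace O.B.prim
  obtain ⟨l, φ, W, lam, x, -, G, -⟩ := H406.exists_geo Ch hE
  have H := O.cone_b (Ch.ord.symm (l + 1))
  have H' := O.cone_b (Ch.ord.symm l)
  obtain ⟨T, N₀, s, P⟩ := exists_phiOut H H' (O.sol1 (Ch.ord.symm (l + 1)).1) (O.sol2_b (Ch.ord.symm (l + 1))) G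
  have hd0 : 0 < O.d₀ / 4 := H.d_pos
  exact H62.hasGSS_of_phiOut Ch G P (by linarith)

end Vale.Agent.P267.H739

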