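import Vale.Agent.P267.H739.Beta
import Vale.Agent.P267.H331.FLGlue
import Mathlib.Analysis.Complex.Liouville

/-!
# P267 / H739, route S, (T0): Liouville's theorem along the curve `C_1`
-/

set_option linter.unusedVariables false
set_option linter.unusedSectionVars false

open scoped Manifold ContDiff ComplexConjugate Matrix Topology
open Set Filter

noncomputable section

namespace Vale.Agent.P267.H739

open Vale.Agent.P267.FL Vale.Agent.P267.XT Vale.Agent.P267.H692 Vale.Agent.P267.H338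

variable {M : Type} [TopologicalSpace M] [ChartedSpace C2 M] [IsManifold 𝓘(ℂ, C2) ω M]
variable {ι ι' : Type} [Fintype ι] [DecidableEq ι] [Fintype ι'] [DecidableEq ι']

theorem diff_comp {s : M → ℂ} {γ : ℂ → M} {t : ℂ} (hs : S0 s (γ t))
    (h0 : ∀ i, dbar0 0 s (γ t) i = 0) (hγ : MDifferentiableAt 𝓘(ℂ) 𝓘(ℂ, C2) γ t) :
    DifferentiableAt ℂ (fun z => s (γ z)) t := by
  have h1 : MDifferentiableAt 𝓘(ℂ, C2) 𝓘(ℂ, ℂ) s (γ t) :=
    H331.mdiff_of_dbar0 (show At0 1 0 s (γ t) from (show At0 ∞ 0 s (γ t) from hs).of_le (by simp))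
      (funext h0)
  exact mdifferentiableAt_iff_differentiableAt.1 (MDifferentiableAt.comp t h1 hγ)

namespace Coll

variable {D : XTData M} {L : LB M ι} {a : M → Fin 2 → ℂ} {α : M → EuclideanSpace ℂ ι}
variable {C : Coll D L a α} {α' : M → EuclideanSpace ℂ ι'} {φ : EmbP1 M}

theorem lam_ne {p : M} (hp : p ∈ C.N) : C.lam p ≠ 0 := by
  obtain ⟨K, hK, hb⟩ := C.lam_bd
  intro h
  have := (hb p hp).1
  rw [h, norm_zero] at this
  exact absurd (inv_pos.2 hK) (not_lt.2 this)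

theorem x_eq_zero_iff {p : M} (hp : p ∈ C.N) : C.x p = 0 ↔ α p = 0 := by
  rw [C.fac p hp]
  constructor
  · intro h; rw [h, zero_smul]
  · intro h; exact (smul_eq_zero.1 h).resolve_right (lam_ne hp)

theorem x_img (G : CollGeo α' φ C) {t : ℂ} (ht : φ.f₀ t ∈ C.N) : C.x (φ.f₀ t) = 0 :=
  (x_eq_zero_iff ht).2 (G.α_img _ (φ.mem_image_f₀ t))

theorem eq_of_source (G : CollGeo α' φ C) {p : M} (hp : p ∈ C.κ.source) (hx : C.x p = 0) :
    p = φ.f₀ (C.κ p 0) := by
  have h := C.lt_κ hp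
  have h1 := G.img_κ _ h.1 h.2
  refine C.κ.injOn hp h1.1 ?_
  rw [h1.2]
  funext i
  fin_cases i
  · rfl
  · show C.κ p 1 = 0
    rw [C.κ_x p hp, hx]

theorem f₀_mem_iff (G : CollGeo α' φ C) (t : ℂ) :
    φ.f₀ t ∈ C.κ.source ↔ C.r₁ < ‖t‖ ∧ ‖t‖ < C.r₂ := by
  constructor
  · intro h
    have h1 := eq_of_source G h (x_img G (C.κ_source h))
    have h2 := φ.inj h1
    rw [h2]
    exact C.lt_κ h
  · rintro ⟨h1, h2⟩
    exact (G.img_κ t h1 h2).1

theorem x_zero_of (G : CollGeo α' φ C) {p : M} (hp : α' p = 0) : C.x p = 0 := by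
  obtain ⟨K, hK⟩ := G.x_le p (G.Y_sub p hp)
  have := hK.self_of_nhds
  rw [hp, norm_zero, mul_zero] at this
  exact norm_le_zero_iff.1 this

theorem notMem_source_of (G : CollGeo α' φ C) {p : M} (hp : α' p = 0) : p ∉ C.κ.source := by
  intro h
  have h1 := eq_of_source G h (x_zero_of G hp)
  have h2 := G.meet p (by rw [h1]; exact φ.mem_image_f₀ _) hp
  rw [h2] at h1
  have h3 := φ.inj h1
  have h4 := (C.lt_κ h).1
  rw [h2, ← h3, norm_zero] at h4
  exact absurd C.r₁_pos (not_lt.2 h4.le)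

theorem mem_inner_of (G : CollGeo α' φ C) {p : M} (hp : α' p = 0) {τ e' : ℝ} (he : 0 < e') :
    p ∈ C.inner τ e' :=
  ⟨G.Y_sub p hp, by rw [x_zero_of G hp, norm_zero]; exact he, fun h => notMem_source_of G hp h.1⟩

/-- **Liouville's theorem along `C_1`.** -/
theorem liou (G : CollGeo α' φ C) {a₁ a₂ e₁ e₂ : ℝ} (h0 : C.r₁ < a₁) (h2 : a₁ < a₂)
    (h3 : a₂ < C.r₂) (he1 : 0 < e₁) (he2 : e₁ < e₂) (he3 : e₂ < C.e) {u : M → ℂ}
    {η : M → Fin 2 → EuclideanSpace ℂ ι} (hu : Reg0 ∞ 0 u)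
    (hdu : ∀ p i, dbar0 0 u p i = C.β a₁ a₂ e₁ e₂ p i + pair (α p) (η p i)) (t : ℂ) :
    u (φ.f₀ t) = ((stp (a₁ ^ 2) (a₂ ^ 2) (‖t‖ ^ 2) : ℝ) : ℂ) * t + u (φ.f₀ 0) := by
  have hr := C.r₁_pos
  have ha1 : 0 < a₁ := hr.trans h0
  have ha12 : a₁ ^ 2 < a₂ ^ 2 := pow_lt_pow_left₀ h2 ha1.le (by norm_num)
  set F : ℂ → ℂ := fun t => u (φ.f₀ t) - ((stp (a₁ ^ 2) (a₂ ^ 2) (‖t‖ ^ 2) : ℝ) : ℂ) * t with hF
  have hα : ∀ s : ℂ, α (φ.f₀ s) = 0 := fun s => G.α_img _ (φ.mem_image_f₀ s)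
  have hpair : ∀ (s : ℂ) i, pair (α (φ.f₀ s)) (η (φ.f₀ s) i) = 0 := fun s i => by
    rw [hα, pair_zero_left]
  have hdu0 : ∀ s : ℂ, ∀ i, dbar0 0 u (φ.f₀ s) i = C.β a₁ a₂ e₁ e₂ (φ.f₀ s) i := fun s i => by
    rw [hdu, hpair, add_zero]
  have hcont : Continuous φ.f₀ := φ.holo₀.continuous
  have hFd : Differentiable ℂ F := by
    intro s
    by_cases hs : φ.f₀ s ∈ C.κ.source
    · -- on the ring
      have hev : F =ᶠ[𝓝 s] fun t => (fun p => u p - C.Gf a₁ a₂ p) (φ.f₀ t) := by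
        filter_upwards [hcont.continuousAt.eventually (C.κ.open_source.mem_nhds hs)] with t ht
        have h4 := (f₀_mem_iff G t).1 ht
        have h5 := (G.img_κ t h4.1 h4.2).2
        simp only [hF, Coll.Gf, h5]
        simp
      refine DifferentiableAt.congr_of_eventuallyEq ?_ hev
      refine diff_comp ((reg0.1 hu _).sub (C.s0_Gf a₁ a₂ hs)) (fun i => ?_) (φ.holo₀ s)
      rw [H692.dbar0_sub (reg0.1 hu _) (C.s0_Gf a₁ a₂ hs), hdu0]
      have h6 : ‖C.x (φ.f₀ s)‖ < e₁ := by rw [x_img G (C.κ_source hs), norm_zero]; exact he1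
      rw [(β_eq' he1 he2 hs h6).self_of_nhds, sub_self]
    · have hβ : ∀ i, dbar0 0 u (φ.f₀ s) i = 0 := fun i => by
        rw [hdu0, β_zero ha1 h2 he1 he2 (fun h => hs h.1)]
        rfl
      have hd := diff_comp (reg0.1 hu _) hβ (φ.holo₀ s)
      rw [f₀_mem_iff G, not_and_or, not_lt, not_lt] at hs
      rcases hs with hs | hs
      · have hev : F =ᶠ[𝓝 s] fun t => u (φ.f₀ t) - t := by
          filter_upwards [continuous_norm.continuousAt.eventually
            (gt_mem_nhds (hs.trans_lt h0))] with t ht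
          simp only [hF]
          rw [stp_one ha12 (pow_le_pow_left₀ (norm_nonneg _) (le_of_lt ht) 2),
            Complex.ofReal_one, one_mul]
        exact (hd.sub differentiableAt_id).congr_of_eventuallyEq hev
      · have hev : F =ᶠ[𝓝 s] fun t => u (φ.f₀ t) := by
          filter_upwards [continuous_norm.continuousAt.eventually
            (lt_mem_nhds (h3.trans_le hs))] with t ht
          simp only [hF]
          rw [stp_zero ha12 (pow_le_pow_left₀ (ha1.trans h2).le (le_of_lt ht) 2),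
            Complex.ofReal_zero, zero_mul, sub_zero]
        exact hd.congr_of_eventuallyEq hev
  have hFb : Bornology.IsBounded (range F) := by
    have hc : Continuous u := continuous_iff_continuousAt.2 fun p => (reg0.1 hu p).continuousAt
    obtain ⟨B, hB⟩ := (φ.isCompact_image.image hc).isBounded.exists_norm_le
    refine isBounded_iff_forall_norm_le.2 ⟨B + a₂, ?_⟩
    rintro _ ⟨t, rfl⟩
    have h1 : ‖u (φ.f₀ t)‖ ≤ B := hB _ ⟨_, φ.mem_image_f₀ t, rfl⟩
    have h4 : ‖((stp (a₁ ^ 2) (a₂ ^ 2) (‖t‖ ^ 2) : ℝ) : ℂ) * t‖ ≤ a₂ := by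
      rw [norm_mul, Complex.norm_real, Real.norm_of_nonneg (stp_nonneg _ _ _)]
      rcases le_total ‖t‖ a₂ with h | h
      · calc _ ≤ 1 * a₂ := mul_le_mul (stp_le_one _ _ _) h (norm_nonneg _) zero_le_one
          _ = a₂ := one_mul _
      · rw [stp_zero ha12 (pow_le_pow_left₀ (ha1.trans h2).le h 2), zero_mul]
        exact (ha1.trans h2).le
    exact (norm_sub_le _ _).trans (add_le_add h1 h4)
  have hk := hFd.apply_eq_apply_of_bounded hFb t 0
  simp only [hF, norm_zero, mul_zero, sub_zero] at hk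
  rw [← hk]
  ring

end Coll

end Vale.Agent.P267.H739
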