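import Vale.Agent.P267.H739.TT

/-!
# P267 / H739, route S: (PHI)
-/

set_option linter.unusedVariables false
set_option linter.unusedSectionVars false

open scoped Manifold ContDiff ComplexConjugate Matrix Topology
open Set Filter

noncomputable section

namespace Vale.Agent.P267.H739

open Vale.Agent.P267.FL Vale.Agent.P267.XT Vale.Agent.P267.H692 Vale.Agent.P267.H338

variable {M : Type} [TopologicalSpace M] [ChartedSpace C2 M] [IsManifold 𝓘(ℂ, C2) ω M]
variable {ι ι' : Type} [Fintype ι] [DecidableEq ι] [Fintype ι'] [DecidableEq ι']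

namespace Coll

variable {D : XTData M} {L : LB M ι} {a : M → Fin 2 → ℂ} {α : M → EuclideanSpace ℂ ι}
variable {C : Coll D L a α} {α' : M → EuclideanSpace ℂ ι'} {φ : EmbP1 M}

theorem holAt_of_inner {U : Set M} (hU : IsOpen U) {T : M → ℂ}
    (hT : ∀ p ∈ U, S0 T p ∧ ∀ i, dbar0 0 T p i = 0) {p : M} (hp : p ∈ U) : HolAt 0 T p := by
  refine holAt_of_dbar0 ?_
  filter_upwards [hU.mem_nhds hp] with y hy
  exact ⟨(show At0 ∞ 0 T y from (hT y hy).1).of_le (by simp), funext (hT y hy).2⟩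

/-- near the ring `|T|` is at least `τa / 2` where `|x|` is small -/
theorem exists_small [T2Space M] (G : CollGeo α' φ C) {τa τb e₁ : ℝ} (h1 : C.r₁ < τa)
    (h2 : τa < τb) (h3 : τb < C.r₂) (he : 0 < e₁) (he1 : e₁ < C.e) {T : M → ℂ}
    (hT : ContinuousOn T (C.PR τa τb e₁))
    (himg : ∀ t : ℂ, ‖t‖ ≤ τb → φ.f₀ t ∈ C.N → T (φ.f₀ t) = t) :
    ∃ δ > (0 : ℝ), ∀ p ∈ C.PR τa τb e₁, ‖C.x p‖ ≤ δ → τa / 2 < ‖T p‖ := by
  have hr := C.r₁_pos
  have hP := C.isCompact_PR h1 h3 he1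
  have hQ : IsCompact (C.PR τa τb e₁ ∩ {p | ‖T p‖ ≤ τa / 2}) := by
    have h4 : IsClosed (C.PR τa τb e₁ ∩ (fun p => ‖T p‖) ⁻¹' Iic (τa / 2)) :=
      hT.norm.preimage_isClosed_of_isClosed hP.isClosed isClosed_Iic
    exact hP.of_isClosed_subset h4 inter_subset_left
  have hxc : ContinuousOn (fun p => ‖C.x p‖) (C.PR τa τb e₁ ∩ {p | ‖T p‖ ≤ τa / 2}) :=
    fun p hp => (C.cont_x (C.κ_source hp.1.1)).norm.continuousWithinAt
  rcases (C.PR τa τb e₁ ∩ {p | ‖T p‖ ≤ τa / 2}).eq_empty_or_nonempty with h | h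
  · refine ⟨1, one_pos, fun p hp _ => ?_⟩
    by_contra hcon
    have : p ∈ (∅ : Set M) := by rw [← h]; exact ⟨hp, not_lt.1 hcon⟩
    exact this
  · obtain ⟨p₀, hp₀, hmin⟩ := hQ.exists_isMinOn h hxc
    have hx0 : 0 < ‖C.x p₀‖ := by
      rw [norm_pos_iff]
      intro h0
      have h5 := eq_of_source G hp₀.1.1 h0
      have h6 := himg (C.κ p₀ 0) hp₀.1.2.2.1 (by rw [← h5]; exact C.κ_source hp₀.1.1)
      rw [← h5] at h6
      have h7 := hp₀.1.2.1
      have h8 : ‖T p₀‖ ≤ τa / 2 := hp₀.2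
      rw [h6] at h8
      linarith
    refine ⟨‖C.x p₀‖ / 2, by positivity, fun p hp hx => ?_⟩
    by_contra hcon
    have h9 := hmin (show p ∈ C.PR τa τb e₁ ∩ {p | ‖T p‖ ≤ τa / 2} from ⟨hp, not_lt.1 hcon⟩)
    have h10 : ‖C.x p₀‖ ≤ ‖C.x p‖ := h9
    linarith

/-- local bounds at points with `α' p ≠ 0` -/
theorem loc_ne {T : M → ℂ} {p : M} (hα' : ContinuousAt α' p) (hT : ContinuousAt T p)
    (h0 : α' p ≠ 0) : ∃ K : ℝ, ∀ᶠ y in 𝓝 p, ‖T y‖ ≤ K * ‖α' y‖ := by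
  have hc : 0 < ‖α' p‖ := norm_pos_iff.2 h0
  refine ⟨(‖T p‖ + 1) / (‖α' p‖ / 2), ?_⟩
  filter_upwards [hT.norm.eventually (gt_mem_nhds (lt_add_one _)),
    hα'.norm.eventually (lt_mem_nhds (half_lt_self hc))] with y h1 h2
  have h3 : 0 < ‖α' p‖ / 2 := half_pos hc
  have h4 : 0 ≤ ‖T p‖ + 1 := by positivity
  calc ‖T y‖ ≤ ‖T p‖ + 1 := le_of_lt h1
    _ = (‖T p‖ + 1) / (‖α' p‖ / 2) * (‖α' p‖ / 2) := by field_simp
    _ ≤ (‖T p‖ + 1) / (‖α' p‖ / 2) * ‖α' y‖ := by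
        exact mul_le_mul_of_nonneg_left (le_of_lt h2) (by positivity)

section

variable [T2Space M]
variable {i₀ : ι} {R d d' : ℝ}
variable {L' : LB M ι'} {a' : M → Fin 2 → ℂ} {i₀' : ι'} {R' : ℝ}

/-- **(PHI)** on a collar -/
theorem exists_phi (H : XtCone D L a i₀ R α d d') (H' : XtCone D L' a' i₀' R' α' d d')
    (G : CollGeo α' φ C) {q : M → EuclideanSpace ℂ ι'} (hq : ∀ p ∈ C.N, S0 q p)
    (hqs : ∀ p ∈ C.N, LB.act (L'.dual.P p) (q p) = q p)
    (hqx : ∀ p ∈ C.N, C.x p = pair (α' p) (q p)) (hqb : ∃ r K : ℝ, ∀ p, D.f p ≤ r → ‖q p‖ ≤ K)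
    (hS : SeriesThm D L a α d) :
    ∃ (T : M → ℂ) (N₀ : Set M) (s : ℝ), PhiOut D α' φ C.x T N₀ s d := by
  have hr := C.r₁_pos
  obtain ⟨τ', h1, h1'⟩ := exists_between C.r₁_lt
  obtain ⟨τa, h2, h2'⟩ := exists_between h1'
  obtain ⟨τb, h3, h3'⟩ := exists_between h2'
  obtain ⟨τ₁, h4, h4'⟩ := exists_between h3'
  obtain ⟨τ, h5, h5'⟩ := exists_between h4'
  obtain ⟨e', he, he'⟩ := exists_between C.e_pos
  obtain ⟨T, v, t', e₁, K, he1, he1e, ht', hT, hnear, himg⟩ :=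
    exists_T H H' G hq hqs hqx hqb hS h1 (h2.trans (h3.trans h4)) h5 h5' he he'
  obtain ⟨eb, heb, heb'⟩ := exists_between he1
  have hebC : eb < C.e := heb'.trans (he1e.trans_lt he')
  have ra : C.r₁ < τa := h1.trans h2
  have rb : C.r₁ < τb := ra.trans h3
  have hb2 : τb < C.r₂ := h4.trans h4'
  have hUo : IsOpen (C.inner τ₁ e₁) := C.isOpen_inner (rb.trans h4) h4' e₁
  have hNo : IsOpen (C.inner τb eb) := C.isOpen_inner rb hb2 eb
  have hNU : C.inner τb eb ⊆ C.inner τ₁ e₁ := fun p hp =>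
    ⟨hp.1, hp.2.1.trans heb', fun h => hp.2.2 ⟨h.1, h4.le.trans h.2⟩⟩
  have hThol : ∀ p ∈ C.inner τ₁ e₁, HolAt 0 T p := fun p hp =>
    holAt_of_inner hUo (fun y hy => ⟨(hT y hy).1, (hT y hy).2.1⟩) hp
  have hxhol : ∀ p ∈ C.N, HolAt 0 C.x p := fun p hp =>
    holAt_of_inner C.isOpen (fun y hy => ⟨C.s0x hy, C.x_hol y hy⟩) hp
  have hTc : ∀ p ∈ C.inner τ₁ e₁, ContinuousAt T p := fun p hp => (hT p hp).1.continuousAt
  -- the small number
  have hPU : C.PR τa τb eb ⊆ C.inner τ₁ e₁ := fun p hp =>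
    ⟨C.κ_source hp.1, by rw [← C.κ_x p hp.1]; exact hp.2.2.2.trans_lt heb',
      fun h => absurd (h.2.trans hp.2.2.1) (not_le.2 h4)⟩
  obtain ⟨δ, hδ, hsmall⟩ := exists_small G ra h3 hb2 heb hebC
    (fun p hp => (hTc p (hPU hp)).continuousWithinAt)
    (fun t ht htN => himg t (ht.trans (h4.trans h5).le) htN)
  have hτa : 0 < τa := hr.trans ra
  set s := min (min (τa / 2) δ) (eb / 2) with hs
  have hs0 : 0 < s := by
    rw [hs]; exact lt_min (lt_min (by positivity) hδ) (by positivity)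
  have hs1 : s ≤ τa / 2 := (min_le_left _ _).trans (min_le_left _ _)
  have hs2 : s ≤ δ := (min_le_left _ _).trans (min_le_right _ _)
  have hs3 : s ≤ eb / 2 := min_le_right _ _
  have hsb : s < τb := by linarith
  -- continuity of the data
  obtain ⟨Ct, hCt⟩ := ht'.bd
  have hα'c : ∀ p, ContinuousAt α' p := fun p => (reg0.1 H'.α_reg p).continuousAt
  have hR' : ∀ p, α' p = 0 → D.f p < R' := fun p hp => not_le.1 fun h => H'.α_out p h hp
  have hfc := continuous_f D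
  have hexp : ∀ p, 0 < Real.exp (-d * D.f p) := fun p => Real.exp_pos _
  -- the bound for `T` where `T = ⟨α', t'⟩ - x v`
  have hTb : ∀ p ∈ C.inner τ' e₁, D.f p ≤ R' → ∀ Kx : ℝ, 0 ≤ Kx → ‖C.x p‖ ≤ Kx * ‖α' p‖ →
      ‖T p‖ ≤ (|Ct| + Kx * |K|) * ‖α' p‖ * Real.exp (-d * D.f p) := by
    intro p hp hfp Kx hKx hx
    rw [hnear p hp hfp]
    have hpU : p ∈ C.inner τ₁ e₁ :=
      ⟨hp.1, hp.2.1, fun h => hp.2.2 ⟨h.1, (h2.trans (h3.trans h4)).le.trans h.2⟩⟩
    have e1 : ‖pair (α' p) (t' p)‖ ≤ ‖α' p‖ * (|Ct| * Real.exp (-d * D.f p)) :=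
      (norm_pair_le _ _).trans (mul_le_mul_of_nonneg_left ((hCt p).trans
        (mul_le_mul_of_nonneg_right (le_abs_self _) (hexp p).le)) (norm_nonneg _))
    have e2 : ‖v p‖ ≤ |K| * Real.exp (-d * D.f p) :=
      (hT p hpU).2.2.trans (mul_le_mul_of_nonneg_right (le_abs_self _) (hexp p).le)
    have e3 : ‖C.x p * v p‖ ≤ (Kx * ‖α' p‖) * (|K| * Real.exp (-d * D.f p)) := by
      rw [norm_mul]
      exact mul_le_mul hx e2 (norm_nonneg _) (by positivity)
    calc _ ≤ _ := norm_sub_le _ _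
      _ ≤ ‖α' p‖ * (|Ct| * Real.exp (-d * D.f p)) +
          (Kx * ‖α' p‖) * (|K| * Real.exp (-d * D.f p)) := add_le_add e1 e3
      _ = _ := by ring
  -- the inner end
  obtain ⟨rx, Kx, hKx⟩ := G.x_in
  obtain ⟨rn, hrn⟩ := C.inn eb heb
  have hinn : ∀ p, D.f p ≤ min (min rx rn) R' → p ∈ C.inner τb eb ∧ ‖C.x p‖ ≤ |Kx| * ‖α' p‖ ∧
      ‖T p‖ ≤ (|Ct| + |Kx| * |K|) * ‖α' p‖ * Real.exp (-d * D.f p) := by
    intro p hp
    have f1 : D.f p ≤ rx := hp.trans ((min_le_left _ _).trans (min_le_left _ _))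
    have f2 : D.f p ≤ rn := hp.trans ((min_le_left _ _).trans (min_le_right _ _))
    have f3 : D.f p ≤ R' := hp.trans (min_le_right _ _)
    have g1 := hrn p f2
    have g2 : ‖C.x p‖ ≤ |Kx| * ‖α' p‖ :=
      (hKx p f1).trans (mul_le_mul_of_nonneg_right (le_abs_self _) (norm_nonneg _))
    exact ⟨⟨g1.1, g1.2.2, fun h => g1.2.1 h.1⟩, g2,
      hTb p ⟨g1.1, g1.2.2.trans heb', fun h => g1.2.1 h.1⟩ f3 _ (abs_nonneg _) g2⟩
  refine ⟨T, C.inner τb eb, s, ?_⟩
  refine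
    { s_pos := hs0
      open_N := hNo
      x_hol := fun p hp => hxhol p hp.1
      T_hol := fun p hp => hThol p (hNU hp)
      Y_sub := fun p hp => mem_inner_of G hp heb
      inn := ⟨min (min rx rn) R', max |Kx| (|Ct| + |Kx| * |K|), fun p hp => ?_⟩
      loc := fun p hp => ?_
      tend := fun ε hε => ?_
      out := ?_
      closed := fun s' hs' => ?_
      curve := fun t ht => ?_
      fibre := fun p hp hx hTp => ?_
      imm := fun t ht0 hts => ?_ }
  · obtain ⟨g1, g2, g3⟩ := hinn p hp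
    refine ⟨g1, g2.trans (mul_le_mul_of_nonneg_right (le_max_left _ _) (norm_nonneg _)),
      g3.trans ?_⟩
    refine mul_le_mul_of_nonneg_right ?_ (hexp p).le
    exact mul_le_mul_of_nonneg_right (le_max_right _ _) (norm_nonneg _)
  · -- local bounds
    by_cases h0 : α' p = 0
    · obtain ⟨Kp, hKp⟩ := G.x_le p hp.1
      have g1 : ∀ᶠ y in 𝓝 p, y ∈ C.inner τ' e₁ :=
        (C.isOpen_inner h1 (h2.trans (h3.trans hb2)) e₁).mem_nhds (mem_inner_of G h0 he1)
      have g2 : ∀ᶠ y in 𝓝 p, D.f y ≤ R' :=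
        (hfc.continuousAt.eventually (gt_mem_nhds (hR' p h0))).mono fun y hy => le_of_lt hy
      have g3 : ∀ᶠ y in 𝓝 p, Real.exp (-d * D.f y) < Real.exp (-d * D.f p) + 1 := by
        have : Continuous fun y => Real.exp (-d * D.f y) :=
          Real.continuous_exp.comp (continuous_const.mul hfc)
        exact this.continuousAt.eventually (gt_mem_nhds (lt_add_one _))
      refine ⟨max |Kp| ((|Ct| + |Kp| * |K|) * (Real.exp (-d * D.f p) + 1)), ?_⟩
      filter_upwards [hKp, g1, g2, g3] with y y1 y2 y3 y4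
      have y5 : ‖C.x y‖ ≤ |Kp| * ‖α' y‖ :=
        y1.trans (mul_le_mul_of_nonneg_right (le_abs_self _) (norm_nonneg _))
      refine ⟨y5.trans (mul_le_mul_of_nonneg_right (le_max_left _ _) (norm_nonneg _)), ?_⟩
      refine (hTb y y2 y3 _ (abs_nonneg _) y5).trans ?_
      calc (|Ct| + |Kp| * |K|) * ‖α' y‖ * Real.exp (-d * D.f y)
          ≤ (|Ct| + |Kp| * |K|) * ‖α' y‖ * (Real.exp (-d * D.f p) + 1) :=
            mul_le_mul_of_nonneg_left (le_of_lt y4) (by positivity)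
        _ = ((|Ct| + |Kp| * |K|) * (Real.exp (-d * D.f p) + 1)) * ‖α' y‖ := by ring
        _ ≤ _ := mul_le_mul_of_nonneg_right (le_max_right _ _) (norm_nonneg _)
    · obtain ⟨K1, hK1⟩ := G.x_le p hp.1
      obtain ⟨K2, hK2⟩ := loc_ne (hα'c p) (hTc p (hNU hp)) h0
      refine ⟨max K1 K2, ?_⟩
      filter_upwards [hK1, hK2] with y y1 y2
      exact ⟨y1.trans (mul_le_mul_of_nonneg_right (le_max_left _ _) (norm_nonneg _)),
        y2.trans (mul_le_mul_of_nonneg_right (le_max_right _ _) (norm_nonneg _))⟩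
  · -- limits at the inner end
    obtain ⟨r1, hr1⟩ := C.inn ε hε
    obtain ⟨Ca, hCa⟩ := H'.α_in
    set A := (|Ct| + |Kx| * |K|) * |Ca| with hA
    have hA0 : 0 ≤ A := by positivity
    have hdd : 0 < d' - d := sub_pos.2 H'.d_lt
    obtain ⟨r2, hr2⟩ : ∃ r2 : ℝ, ∀ x ≤ r2, A * Real.exp ((d' - d) * x) < ε := by
      have h6 : Tendsto (fun x : ℝ => A * Real.exp ((d' - d) * x)) atBot (𝓝 (A * 0)) := by
        refine Tendsto.const_mul A (Real.tendsto_exp_atBot.comp ?_)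
        exact tendsto_id.const_mul_atBot hdd
      rw [mul_zero] at h6
      obtain ⟨r2, hr2⟩ := (h6.eventually (gt_mem_nhds hε)).exists_mem.imp fun _ h => h
      obtain ⟨r3, hr3⟩ := mem_atBot_sets.1 hr2.1
      exact ⟨r3, fun x hx => hr2.2 x (hr3 x hx)⟩
    refine ⟨min (min r1 r2) (min (min (min rx rn) R') 0), fun p hp => ?_⟩
    have f1 : D.f p ≤ r1 := hp.trans ((min_le_left _ _).trans (min_le_left _ _))
    have f2 : D.f p ≤ r2 := hp.trans ((min_le_left _ _).trans (min_le_right _ _))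
    have f3 : D.f p ≤ min (min rx rn) R' := hp.trans ((min_le_right _ _).trans (min_le_left _ _))
    have f4 : D.f p ≤ 0 := hp.trans ((min_le_right _ _).trans (min_le_right _ _))
    refine ⟨(hr1 p f1).2.2, ?_⟩
    have g3 := (hinn p f3).2.2
    have g4 : ‖α' p‖ ≤ |Ca| * Real.exp (d' * D.f p) :=
      (hCa p f4).trans (mul_le_mul_of_nonneg_right (le_abs_self _) (Real.exp_pos _).le)
    calc ‖T p‖ ≤ (|Ct| + |Kx| * |K|) * ‖α' p‖ * Real.exp (-d * D.f p) := g3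
      _ ≤ (|Ct| + |Kx| * |K|) * (|Ca| * Real.exp (d' * D.f p)) * Real.exp (-d * D.f p) := by
          refine mul_le_mul_of_nonneg_right ?_ (hexp p).le
          exact mul_le_mul_of_nonneg_left g4 (by positivity)
      _ = A * (Real.exp (d' * D.f p) * Real.exp (-d * D.f p)) := by rw [hA]; ring
      _ = A * Real.exp ((d' - d) * D.f p) := by rw [← Real.exp_add]; ring_nf
      _ < ε := hr2 _ f2
  · obtain ⟨B, hB⟩ := C.out
    exact ⟨B, fun p hp => hB p hp.1⟩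
  · -- closedness
    have hset : {p | p ∈ C.inner τb eb ∧ ‖C.x p‖ ≤ s' ∧ ‖T p‖ ≤ s'} =
        (C.S τa (eb / 2) ∩ (fun p => ‖C.x p‖) ⁻¹' Iic s') ∩
          (C.S τa (eb / 2) ∩ (fun p => ‖T p‖) ⁻¹' Iic s') := by
      ext p
      constructor
      · rintro ⟨p1, p2, p3⟩
        have p4 : p ∈ C.S τa (eb / 2) := by
          refine ⟨p1.1, p2.trans (hs'.le.trans hs3), fun h => ?_⟩
          have p5 : p ∈ C.PR τa τb eb := by
            refine ⟨h.1, h.2.le, ?_, ?_⟩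
            · by_contra hcon
              exact p1.2.2 ⟨h.1, (not_le.1 hcon).le⟩
            · rw [C.κ_x p h.1]; exact p1.2.1.le
          have p6 := hsmall p p5 (p2.trans (hs'.le.trans hs2))
          linarith
        exact ⟨⟨p4, p2⟩, ⟨p4, p3⟩⟩
      · rintro ⟨⟨p1, p2⟩, ⟨-, p3⟩⟩
        refine ⟨⟨p1.1, p1.2.1.trans_lt (half_lt_self heb), fun h => ?_⟩, p2, p3⟩
        exact p1.2.2 ⟨h.1, h3.trans_le h.2⟩
    have hScl : IsClosed (C.S τa (eb / 2)) := isClosed_S ra (h3.trans hb2) (by linarith)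
    have hSN : C.S τa (eb / 2) ⊆ C.inner τb eb := fun p hp =>
      ⟨hp.1, hp.2.1.trans_lt (half_lt_self heb), fun h => hp.2.2 ⟨h.1, h3.trans_le h.2⟩⟩
    have c1 : ContinuousOn (fun p => ‖C.x p‖) (C.S τa (eb / 2)) := fun p hp =>
      (C.cont_x hp.1).norm.continuousWithinAt
    have c2 : ContinuousOn (fun p => ‖T p‖) (C.S τa (eb / 2)) := fun p hp =>
      (hTc p (hNU (hSN hp))).norm.continuousWithinAt
    rw [hset]
    exact (c1.preimage_isClosed_of_isClosed hScl isClosed_Iic).inter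
      (c2.preimage_isClosed_of_isClosed hScl isClosed_Iic)
  · have htN : φ.f₀ t ∈ C.N := G.img t (by linarith)
    refine ⟨⟨htN, by rw [x_img G htN, norm_zero]; exact heb, fun h => ?_⟩, x_img G htN,
      himg t (by linarith) htN⟩
    have h6 := (f₀_mem_iff G t).1 h.1
    have h7 := (G.img_κ t h6.1 h6.2).2
    have h8 : τb ≤ ‖t‖ := by
      have := h.2
      rw [h7] at this
      simpa using this
    linarith
  · rcases G.zero p hp.1 hx with h0 | ⟨t, ht, hpt⟩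
    · exact Or.inl h0
    · right
      refine ⟨t, ?_, hpt⟩
      have h6 : ‖t‖ ≤ τ := by
        by_contra hcon
        have h7 : C.r₁ < ‖t‖ := (rb.trans (h4.trans h5)).trans (not_le.1 hcon)
        have h8 := G.img_κ t h7 ht
        refine hp.2.2 ⟨by rw [hpt]; exact h8.1, ?_⟩
        rw [hpt, h8.2]
        show τb ≤ ‖t‖
        exact ((h4.trans h5).trans (not_le.1 hcon)).le
      have h9 := himg t h6 (by rw [← hpt]; exact hp.1)
      rw [← hpt] at h9
      rwa [h9] at hTp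
  · have htN : ∀ᶠ z in 𝓝 t, ‖z‖ < s := continuous_norm.continuousAt.eventually (gt_mem_nhds hts)
    have hmem : ∀ z : ℂ, ‖z‖ < s → φ.f₀ z ∈ C.N := fun z hz => G.img z (by linarith)
    have htU : φ.f₀ t ∈ C.inner τ₁ e₁ := by
      refine ⟨hmem t hts, by rw [x_img G (hmem t hts), norm_zero]; exact he1, fun h => ?_⟩
      have h6 := (f₀_mem_iff G t).1 h.1
      have h7 := (G.img_κ t h6.1 h6.2).2
      have h8 : τ₁ ≤ ‖t‖ := by
        have := h.2
        rw [h7] at this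
        simpa using this
      linarith
    exact H62.imm_of_curve (H331.HolAt.mdiff (hxhol _ (hmem t hts)))
      (H331.HolAt.mdiff (hThol _ htU)) (φ.holo₀ t)
      (htN.mono fun z hz => x_img G (hmem z hz))
      (htN.mono fun z hz => himg z (by linarith) (hmem z hz))
      (G.dx t ht0 (by linarith))

end

end Coll

end Vale.Agent.P267.H739
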