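import Vale.Agent.P267.H739.TZero
import Vale.Agent.P267.H433.StLoc
import Vale.Agent.P267.H62.FinCov

/-!
# P267 / H739, route S: (T)
-/

set_option linter.unusedVariables false
set_option linter.unusedSectionVars false

open scoped Manifold ContDiff ComplexConjugate Matrix Topology
open Set Filter

noncomputable section

namespace Vale.Agent.P267.H739

open Vale.Agent.P267.FL Vale.Agent.P267.XT Vale.Agent.P267.H692 Vale.Agent.P267.H338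

variable {M : Type} [TopologicalSpace M] [ChartedSpace C2 M] [IsManifold 𝓘(ℂ, C2) ω M]
variable {ι ι' : Type} [Fintype ι] [DecidableEq ι] [Fintype ι'] [DecidableEq ι']

namespace Coll

variable {D : XTData M} {L : LB M ι} {a : M → Fin 2 → ℂ} {α : M → EuclideanSpace ℂ ι}
variable {C : Coll D L a α} {α' : M → EuclideanSpace ℂ ι'} {φ : EmbP1 M}

/-- `⟨lam, η⟩` is closed where `∂̄T₀ = ⟨α, η⟩` -/
theorem closed_b (hd : Dense {x | α x ≠ 0}) {U : Set M} (hU : IsOpen U) (hUN : U ⊆ C.N)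
    {T₀ : M → ℂ} {η : M → Fin 2 → EuclideanSpace ℂ ι} (hT : Reg0 ∞ 0 T₀) (hη : Reg1 ∞ 0 η)
    (he : ∀ p ∈ U, ∀ i, dbar0 0 T₀ p i = pair (α p) (η p i)) :
    ∀ p ∈ U, dbar1 0 (fun y i => pair (C.lam y) (η y i)) p = 0 := by
  have hb : ∀ p ∈ U, S1 (fun y i => pair (C.lam y) (η y i)) p := fun p hp =>
    s1_pair (C.lam_at p (hUN hp)) (reg1.1 hη p)
  have key : ∀ p ∈ U, C.x p * dbar1 0 (fun y i => pair (C.lam y) (η y i)) p = 0 := by
    intro p hp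
    have h1 : dbar0 0 T₀ =ᶠ[𝓝 p] fun y i => C.x y * pair (C.lam y) (η y i) := by
      filter_upwards [hU.mem_nhds hp] with y hy
      funext i
      rw [he y hy i, C.fac y (hUN hy), pair_smul_left]
    have h2 := H692.dbar1_congr h1
    rw [dbar1_dbar0 (reg0.1 hT p), dbar1_mul (C.s0x (hUN hp)) (hb p hp)] at h2
    rw [C.x_hol p (hUN hp) 0, C.x_hol p (hUN hp) 1] at h2
    simpa using h2.symm
  intro p hp
  have h3 : S2 (dbar1 0 (fun y i => pair (C.lam y) (η y i))) p := (hb p hp).dbar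
  refine H433.eq_zero_of_closure D.herm (S := {y | y ∈ U ∧ α y ≠ 0}) h3 ?_ fun y hy => ?_
  · rw [mem_closure_iff_nhds]
    intro V hV
    obtain ⟨O, hO, hOo, hpO⟩ := mem_nhds_iff.1 hV
    obtain ⟨z, ⟨hz1, hz2⟩, hz⟩ := hd.inter_open_nonempty (O ∩ U) (hOo.inter hU) ⟨p, hpO, hp⟩
    exact ⟨z, hO hz1, hz2, hz⟩
  · have h4 := key y hy.1
    refine (mul_eq_zero.1 h4).resolve_left fun h0 => hy.2 ?_
    rw [C.fac y (hUN hy.1), h0, zero_smul]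

section

variable [T2Space M]
variable {i₀ : ι} {R d d' : ℝ}
variable {L' : LB M ι'} {a' : M → Fin 2 → ℂ} {i₀' : ι'} {R' : ℝ}

/-- **(T)** -/
theorem exists_T (H : XtCone D L a i₀ R α d d') (H' : XtCone D L' a' i₀' R' α' d d')
    (G : CollGeo α' φ C) {q : M → EuclideanSpace ℂ ι'} (hq : ∀ p ∈ C.N, S0 q p)
    (hqs : ∀ p ∈ C.N, LB.act (L'.dual.P p) (q p) = q p)
    (hqx : ∀ p ∈ C.N, C.x p = pair (α' p) (q p)) (hqb : ∃ r K : ℝ, ∀ p, D.f p ≤ r → ‖q p‖ ≤ K)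
    (hS : SeriesThm D L a α d)
    {τ' τ₁ τ e' : ℝ} (h1 : C.r₁ < τ') (h2 : τ' < τ₁) (h12 : τ₁ < τ) (h3 : τ < C.r₂) (he : 0 < e')
    (he' : e' < C.e) :
    ∃ (T v : M → ℂ) (t' : M → EuclideanSpace ℂ ι') (e₁ K : ℝ), 0 < e₁ ∧ e₁ ≤ e' ∧
      W0 D d t' ∧
      (∀ p ∈ C.inner τ₁ e₁, S0 T p ∧ (∀ i, dbar0 0 T p i = 0) ∧
        ‖v p‖ ≤ K * Real.exp (-d * D.f p)) ∧
      (∀ p ∈ C.inner τ' e₁, D.f p ≤ R' → T p = pair (α' p) (t' p) - C.x p * v p) ∧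
      ∀ t : ℂ, ‖t‖ ≤ τ → φ.f₀ t ∈ C.N → T (φ.f₀ t) = t := by
  obtain ⟨T₀, η, t', hT₀, hηs, hη, ht's, ht', hdT, hnear, himg⟩ :=
    exists_T0 H H' G hq hqs hqx hqb h1 (h2.trans h12) h3 he he'
  have hτ1 : C.r₁ < τ₁ := h1.trans h2
  have hUo : IsOpen (C.inner τ C.e) := C.isOpen_inner (hτ1.trans h12) h3 C.e
  have hcl := closed_b (C := C) H.α_dense hUo (fun p hp => hp.1) hT₀ hη.reg hdT
  obtain ⟨e₀, K, he0, he0e, hser⟩ := hS C τ₁ τ e' hτ1 h12 h3 he he'.le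
  have hsub : C.inner τ e' ⊆ C.inner τ C.e := fun p hp => ⟨hp.1, hp.2.1.trans he', hp.2.2⟩
  obtain ⟨Kl, hKl0, hKl⟩ := C.lam_bd
  obtain ⟨Kη, hKη⟩ := hη.bd
  obtain ⟨v, hv⟩ := hser (fun y i => pair (C.lam y) (η y i))
    (fun p hp => s1_pair (C.lam_at p hp.1) (reg1.1 hη.reg p)) (fun p hp => hcl p (hsub hp))
    (Kl * |Kη|) (by positivity) (fun p hp => by
      have e2 := n1_pair_le D.herm C.lam η p
      have e3 : n1 D.h 0 η p ≤ |Kη| * Real.exp (-d * D.f p) :=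
        (hKη p).trans (mul_le_mul_of_nonneg_right (le_abs_self _) (Real.exp_pos _).le)
      rw [mul_assoc]
      exact e2.trans (mul_le_mul (hKl p hp.1).2 e3 (n1_nonneg _ _) hKl0.le))
  have hsub1 : C.inner τ₁ e₀ ⊆ C.inner τ C.e := fun p hp =>
    ⟨hp.1, hp.2.1.trans_le (he0e.trans he'.le), fun h => hp.2.2 ⟨h.1, h12.le.trans h.2⟩⟩
  refine ⟨fun p => T₀ p - C.x p * v p, v, t', e₀, K * (Kl * |Kη|), he0, he0e, ht',
    fun p hp => ⟨?_, fun i => ?_, (hv p hp).2.2⟩, fun p hp hfp => ?_, fun t ht htN => ?_⟩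
  · exact (reg0.1 hT₀ p).sub (S0.mul (C.s0x hp.1) (hv p hp).1)
  · have hvp : S0 v p := (hv p hp).1
    rw [H692.dbar0_sub (reg0.1 hT₀ p) (S0.mul (C.s0x hp.1) hvp),
      H692.dbar0_mul (C.s0x hp.1) hvp, C.x_hol p hp.1 i, (hv p hp).2.1 i, hdT p (hsub1 hp) i,
      C.fac p hp.1, pair_smul_left]
    ring
  · show T₀ p - C.x p * v p = _
    rw [hnear p ⟨hp.1, hp.2.1.trans_le he0e, hp.2.2⟩ hfp]
  · show T₀ (φ.f₀ t) - C.x (φ.f₀ t) * v (φ.f₀ t) = t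
    rw [himg t ht, x_img G htN, zero_mul, sub_zero]

end

end Coll

end Vale.Agent.P267.H739
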