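import Vale.Agent.P267.H739.Liou

/-!
# P267 / H739, route S: (T0)
-/

set_option linter.unusedVariables false
set_option linter.unusedSectionVars false

open scoped Manifold ContDiff ComplexConjugate Matrix Topology
open Set Filter

noncomputable section

namespace Vale.Agent.P267.H739

open Vale.Agent.P267.FL Vale.Agent.P267.XT Vale.Agent.P267.H692 Vale.Agent.P267.H338

variable {M : Type} [TopologicalSpace M] [ChartedSpace C2 M] [IsManifold 𝓘(ℂ, C2) ω M]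
variable {ι ι' : Type} [Fintype ι] [DecidableEq ι] [Fintype ι'] [DecidableEq ι']

theorem s1_pair {v : M → EuclideanSpace ℂ ι} {w : M → Fin 2 → EuclideanSpace ℂ ι} {p : M}
    (hv : S0 v p) (hw : S1 w p) : S1 (fun y i => pair (v y) (w y i)) p := by
  have h := S1.bil pairL hv hw
  simp only [pairL_apply] at h
  exact h

namespace Coll

variable {D : XTData M} {L : LB M ι} {a : M → Fin 2 → ℂ} {α : M → EuclideanSpace ℂ ι}
variable {C : Coll D L a α} {α' : M → EuclideanSpace ℂ ι'} {φ : EmbP1 M}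

/-- the part of `S τ e'` above a level is compact -/
theorem isCompact_S {τ e' : ℝ} (h1 : C.r₁ < τ) (h2 : τ < C.r₂) (he : e' < C.e) (r : ℝ) :
    IsCompact (C.S τ e' ∩ {p | r ≤ D.f p}) := by
  obtain ⟨B, hB⟩ := C.out
  have : C.S τ e' ∩ {p | r ≤ D.f p} = D.f ⁻¹' Icc r B ∩ C.S τ e' := by
    ext p
    constructor
    · rintro ⟨h3, h4⟩
      exact ⟨⟨h4, hB p h3.1⟩, h3⟩
    · rintro ⟨h3, h4⟩
      exact ⟨h4, h3.1⟩
  rw [this]
  exact (D.f_proper r B).inter_right (isClosed_S h1 h2 he)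

theorem bdd_on_S {τ e' : ℝ} (h1 : C.r₁ < τ) (h2 : τ < C.r₂) (he : e' < C.e) {n : M → ℝ}
    (hn : ContinuousOn n C.N) (hin : ∃ r K : ℝ, ∀ p, D.f p ≤ r → n p ≤ K) :
    ∃ K : ℝ, 0 ≤ K ∧ ∀ p ∈ C.S τ e', n p ≤ K := by
  obtain ⟨r, K, hK⟩ := hin
  obtain ⟨B, hB⟩ := (isCompact_S h1 h2 he r).bddAbove_image
    (hn.mono (inter_subset_left.trans fun p hp => hp.1))
  refine ⟨max (max K B) 0, le_max_right _ _, fun p hp => ?_⟩
  rcases le_total (D.f p) r with h | h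
  · exact (hK p h).trans ((le_max_left _ _).trans (le_max_left _ _))
  · exact (hB ⟨p, ⟨hp, h⟩, rfl⟩).trans ((le_max_right _ _).trans (le_max_left _ _))

theorem inner_eq_inter {τ e' : ℝ} (p : M) (hp : p ∈ C.inner τ e') : p ∈ C.N := hp.1

/-- the support of `∂̄` of the cut-off function -/
theorem tsupport_cut_subset {τ₁ τ₂ e₁ e₂ : ℝ} (h1 : C.r₁ < τ₁) (h2 : τ₁ < τ₂) (h3 : τ₂ < C.r₂)
    (he1 : 0 < e₁) (he2 : e₁ < e₂) (he3 : e₂ < C.e) :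
    tsupport (C.cut τ₁ τ₂ e₁ e₂) ⊆ C.S τ₂ e₂ := by
  refine closure_minimal (fun p hp => ?_) (isClosed_S (h1.trans h2) h3 he3)
  by_contra hcon
  exact hp (cut_zero h1 h2 he1 he2 hcon)

theorem tsupport_dcut_subset {τ₁ τ₂ e₁ e₂ : ℝ} (h1 : C.r₁ < τ₁) (h2 : τ₁ < τ₂) (h3 : τ₂ < C.r₂)
    (he1 : 0 < e₁) (he2 : e₁ < e₂) (he3 : e₂ < C.e) :
    tsupport (dbar0 0 (C.cut τ₁ τ₂ e₁ e₂)) ⊆ C.S τ₂ e₂ \ C.inner τ₁ e₁ := by
  refine closure_minimal (fun p hp => ?_)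
    ((isClosed_S (h1.trans h2) h3 he3).sdiff (C.isOpen_inner h1 (h2.trans h3) e₁))
  constructor
  · by_contra hcon
    apply hp
    have : C.cut τ₁ τ₂ e₁ e₂ =ᶠ[𝓝 p] fun _ => 0 := by
      filter_upwards [(isClosed_S (h1.trans h2) h3 he3).isOpen_compl.mem_nhds hcon] with q hq
      exact cut_zero h1 h2 he1 he2 hq
    funext i
    rw [H692.dbar0_congr this, H692.dbar0_const]
    rfl
  · intro hcon
    apply hp
    funext i
    rw [H692.dbar0_congr (cut_eventually_one h1 h2 h3 he1 he2 hcon), H692.dbar0_const]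
    rfl

theorem compact_dcut {τ₁ τ₂ e₁ e₂ : ℝ} (h1 : C.r₁ < τ₁) (h2 : τ₁ < τ₂) (h3 : τ₂ < C.r₂)
    (he1 : 0 < e₁) (he2 : e₁ < e₂) (he3 : e₂ < C.e) :
    HasCompactSupport (dbar0 0 (C.cut τ₁ τ₂ e₁ e₂)) := by
  obtain ⟨r, hr⟩ := C.inn e₁ he1
  refine (isCompact_S (h1.trans h2) h3 he3 r).of_isClosed_subset (isClosed_tsupport _) ?_
  intro p hp
  have h4 := tsupport_dcut_subset h1 h2 h3 he1 he2 he3 hp
  refine ⟨h4.1, ?_⟩
  by_contra hcon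
  have h5 := hr p (not_le.1 hcon).le
  exact h4.2 ⟨h5.1, h5.2.2, fun h => h5.2.1 h.1⟩

section

variable [T2Space M]
variable {i₀ : ι} {R d d' : ℝ}
variable {L' : LB M ι'} {a' : M → Fin 2 → ℂ} {i₀' : ι'} {R' : ℝ}

/-- the class of a solution of `∂̄u = ⟨α, η⟩` near `Y ∪ {inner end}` -/
theorem near_sol (H' : XtCone D L' a' i₀' R' α' d d')
    (G : CollGeo α' φ C) {q : M → EuclideanSpace ℂ ι'} (hq : ∀ p ∈ C.N, S0 q p)
    (hqs : ∀ p ∈ C.N, LB.act (L'.dual.P p) (q p) = q p)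
    (hqx : ∀ p ∈ C.N, C.x p = pair (α' p) (q p)) (hqb : ∃ r K : ℝ, ∀ p, D.f p ≤ r → ‖q p‖ ≤ K)
    {τ' τm τ e' f₁ f₂ : ℝ} (h1 : C.r₁ < τ') (hm1 : τ' < τm) (hm2 : τm < τ) (h3 : τ < C.r₂)
    (he : 0 < e') (hf1 : e' < f₁) (hf12 : f₁ < f₂) (hf2 : f₂ < C.e)
    {u : M → ℂ} {η : M → Fin 2 → EuclideanSpace ℂ ι} (hu : W0 D d u) (hη : W1 D d η)
    (hue : ∀ p ∈ C.inner τ C.e, ∀ i, dbar0 0 u p i = pair (α p) (η p i)) :
    ∃ (c' : ℂ) (t' : M → EuclideanSpace ℂ ι'), L'.dual.Sec t' ∧ W0 D d t' ∧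
      (∀ p ∈ C.inner τ' e', D.f p ≤ R' → u p - c' = pair (α' p) (t' p)) := by
  have hb1 : C.r₁ < τ := h1.trans (hm1.trans hm2)
  have hm3 := hm2.trans h3
  have hf3 := hf12.trans hf2
  have hUS : C.inner τ f₂ ⊆ C.S τ f₂ := inner_subset_S
  have hSU : C.S τm f₁ ⊆ C.inner τ f₂ := fun p hp =>
    ⟨hp.1, hp.2.1.trans_lt hf12, fun h => hp.2.2 ⟨h.1, hm2.trans_le h.2⟩⟩
  have hUN : ∀ p ∈ C.inner τ f₂, p ∈ C.N := fun p hp => hp.1
  have hUe : C.inner τ f₂ ⊆ C.inner τ C.e := fun p hp => ⟨hp.1, hp.2.1.trans hf2, hp.2.2⟩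
  have hqc : ContinuousOn (fun p => ‖q p‖) C.N := fun p hp =>
    ((hq p hp).continuousAt.norm).continuousWithinAt
  obtain ⟨Kq, hKq0, hKq⟩ := bdd_on_S hb1 h3 hf2 hqc hqb
  obtain ⟨Kl, hKl0, hKl⟩ := C.lam_bd
  obtain ⟨Kη, hKη⟩ := hη.bd
  obtain ⟨Ku, hKu⟩ := hu.bd
  have hψ : Reg0 ∞ 0 (C.cut τ' τm e' f₁) := reg0.2 fun p => s0_cut h1 hm1 hm3 he hf1 hf3 p
  have k1 : tsupport (C.cut τ' τm e' f₁) ⊆ C.inner τ f₂ :=
    (tsupport_cut_subset h1 hm1 hm3 he hf1 hf3).trans hSU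
  have k2 : ∀ x ∈ tsupport (dbar0 0 (C.cut τ' τm e' f₁)), α' x ≠ 0 := fun p hp h0 =>
    (tsupport_dcut_subset h1 hm1 hm3 he hf1 hf3 hp).2 (mem_inner_of G h0 he)
  have k3 : ∀ x ∈ C.inner τ f₂, S1 (fun y i => pair (C.lam y) (η y i) • q y) x := by
    intro x hx
    exact S1.smul' (s1_pair (C.lam_at x (hUN x hx)) (reg1.1 hη.reg x)) (hq x (hUN x hx))
  have k4 : ∀ x ∈ C.inner τ f₂, ∀ i,
      LB.act (L'.dual.P x) (pair (C.lam x) (η x i) • q x) = pair (C.lam x) (η x i) • q x :=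
    fun x hx i => act_smul (hqs x (hUN x hx)) _
  have k5 : ∃ K : ℝ, ∀ x ∈ C.inner τ f₂,
      n1 D.h 0 (fun y i => pair (C.lam y) (η y i) • q y) x ≤ K * Real.exp (-d * D.f x) := by
    refine ⟨Kq * (Kl * |Kη|), fun x hx => ?_⟩
    have e1 := n1_smul_vec D.herm (fun y i => pair (C.lam y) (η y i)) q x
    have e2 := n1_pair_le D.herm C.lam η x
    have e3 : n1 D.h 0 η x ≤ |Kη| * Real.exp (-d * D.f x) :=
      (hKη x).trans (mul_le_mul_of_nonneg_right (le_abs_self _) (Real.exp_pos _).le)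
    have e4 : ‖C.lam x‖ ≤ Kl := (hKl x (hUN x hx)).2
    have e5 : ‖q x‖ ≤ Kq := hKq x (hUS hx)
    calc _ ≤ _ := e1
      _ ≤ Kq * (Kl * (|Kη| * Real.exp (-d * D.f x))) :=
        mul_le_mul e5 (e2.trans (mul_le_mul e4 e3 (n1_nonneg _ _) hKl0.le))
          (n1_nonneg _ _) hKq0
      _ = _ := by ring
  have k6 : ∀ x ∈ C.inner τ f₂, ∀ i,
      dbar0 0 u x i = pair (α' x) (pair (C.lam x) (η x i) • q x) := by
    intro x hx i
    rw [hue x (hUe hx) i, C.fac x (hUN x hx), pair_smul_left, pair_smul_right, hqx x (hUN x hx)]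
    ring
  obtain ⟨c', t', ht's, ht', -, hut⟩ := H'.near_cut (C.isOpen_inner hb1 h3 f₂) hψ k1
    ⟨1, fun x => norm_cut_le x⟩ (compact_dcut h1 hm1 hm3 he hf1 hf3) k2
    (fun x _ => reg0.1 hu.reg x) k3 k4 ⟨Ku, fun x _ => hKu x⟩ k5 k6
  refine ⟨c', t', ht's, ht', fun p hp hfp => ?_⟩
  have h4 := hut p
  rw [(cut_eventually_one h1 hm1 hm3 he hf1 hp).self_of_nhds, one_mul,
    cut_eq_one D (by linarith) hfp, mul_one] at h4
  rw [h4]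
  ring

/-- solutions of `∂̄u = β` modulo `α` -/
theorem solve_β (H : XtCone D L a i₀ R α d d') {a₁ a₂ e₁ e₂ : ℝ} (h0 : C.r₁ < a₁) (h2 : a₁ < a₂)
    (h3 : a₂ < C.r₂) (he1 : 0 < e₁) (he2 : e₁ < e₂) (he3 : e₂ < C.e) :
    ∃ (u : M → ℂ) (η : M → Fin 2 → EuclideanSpace ℂ ι), W0 D d u ∧ L.dual.Sec1 η ∧ W1 D d η ∧
      ∀ x i, dbar0 0 u x i = C.β a₁ a₂ e₁ e₂ x i + pair (α x) (η x i) := by
  have hβreg : Reg1 ∞ 0 (C.β a₁ a₂ e₁ e₂) := β_reg h0 h2 h3 he1 he2 he3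
  have hβc : HasCompactSupport (C.β a₁ a₂ e₁ e₂) := β_compact h0 h2 h3 he1 he2 he3
  have hβs : ∀ x ∈ tsupport (dbar1 0 (C.β a₁ a₂ e₁ e₂)), α x ≠ 0 := dβ_supp h0 h2 h3 he1 he2 he3
  have hF : Reg2 ∞ 0 (dbar1 0 (C.β a₁ a₂ e₁ e₂)) := reg2.2 fun x => (reg1.1 hβreg x).dbar
  have hFc : HasCompactSupport (dbar1 0 (C.β a₁ a₂ e₁ e₂)) := by
    refine hβc.mono' ?_
    intro x hx
    by_contra hcon
    apply hx
    have h1 : C.β a₁ a₂ e₁ e₂ =ᶠ[𝓝 x] fun _ _ => 0 := notMem_tsupport_iff_eventuallyEq.1 hcon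
    rw [H692.dbar1_congr h1]
    exact H692.dbar1_zero x
  have hF0 : ∀ x, α x = 0 → dbar1 0 (C.β a₁ a₂ e₁ e₂) =ᶠ[𝓝 x] fun _ => 0 := by
    intro x hx
    exact notMem_tsupport_iff_eventuallyEq.1 fun h => hβs x h hx
  have hb : W2 D d (fun x => dbar1 0 (C.β a₁ a₂ e₁ e₂) x • ainv α x) :=
    W2.of_compact D (S2.ainv H.α_reg hF hF0) hFc.smul_right d
  exact H.solve0 (W1.of_compact D hβreg hβc d)
    (fun x => act_smul_ainv H.α_sec x _) hb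
    (fun x => (pair_smul_ainv fun hx => (hF0 x hx).self_of_nhds).symm)

/-- **(T0)** -/
theorem exists_T0 (H : XtCone D L a i₀ R α d d') (H' : XtCone D L' a' i₀' R' α' d d')
    (G : CollGeo α' φ C) {q : M → EuclideanSpace ℂ ι'} (hq : ∀ p ∈ C.N, S0 q p)
    (hqs : ∀ p ∈ C.N, LB.act (L'.dual.P p) (q p) = q p)
    (hqx : ∀ p ∈ C.N, C.x p = pair (α' p) (q p)) (hqb : ∃ r K : ℝ, ∀ p, D.f p ≤ r → ‖q p‖ ≤ K)
    {τ' τ e' : ℝ} (h1 : C.r₁ < τ') (h2 : τ' < τ) (h3 : τ < C.r₂) (he : 0 < e') (he' : e' < C.e) :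
    ∃ (T₀ : M → ℂ) (η : M → Fin 2 → EuclideanSpace ℂ ι) (t' : M → EuclideanSpace ℂ ι'),
      Reg0 ∞ 0 T₀ ∧ L.dual.Sec1 η ∧ W1 D d η ∧ L'.dual.Sec t' ∧ W0 D d t' ∧
      (∀ p ∈ C.inner τ C.e, ∀ i, dbar0 0 T₀ p i = pair (α p) (η p i)) ∧
      (∀ p ∈ C.inner τ' e', D.f p ≤ R' → T₀ p = pair (α' p) (t' p)) ∧
      ∀ t : ℂ, ‖t‖ ≤ τ → T₀ (φ.f₀ t) = t := by
  have hr := C.r₁_pos
  have hτ0 : 0 < τ := hr.trans (h1.trans h2)
  have hepos := C.e_pos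
  -- the form `β`
  have hb1 : C.r₁ < τ := h1.trans h2
  obtain ⟨a₂, hb2, hb3⟩ := exists_between h3
  obtain ⟨g₂, hg2, hc3⟩ := exists_between hepos
  obtain ⟨g₁, hc1, hc2⟩ := exists_between hg2
  obtain ⟨u, η, hu, hηs, hη, hue⟩ := solve_β (C := C) H hb1 hb2 hb3 hc1 hc2 hc3
  -- Liouville
  have hliou := liou G hb1 hb2 hb3 hc1 hc2 hc3 hu.reg hue
  -- the class of `u` near `Y ∪ end`
  obtain ⟨τm, hm1, hm2⟩ := exists_between h2
  obtain ⟨f₁, hf1, hf1'⟩ := exists_between he'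
  obtain ⟨f₂, hf12, hf2⟩ := exists_between hf1'
  have hβU : ∀ p ∈ C.inner τ C.e, ∀ i, C.β τ a₂ g₁ g₂ p i = 0 := fun p hp i => by
    have : p ∉ C.PR τ a₂ g₂ := fun h => hp.2.2 ⟨h.1, h.2.1⟩
    rw [β_zero hτ0 hb2 hc1 hc2 this]
    rfl
  have hue' : ∀ p ∈ C.inner τ C.e, ∀ i, dbar0 0 u p i = pair (α p) (η p i) := fun p hp i => by
    rw [hue, hβU p hp i, zero_add]
  obtain ⟨c', t', ht's, ht', hnear⟩ := near_sol H' G hq hqs hqx hqb h1 hm1 hm2 h3 he hf1 hf12 hf2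
    hu hη hue'
  have hbase : u (φ.f₀ 0) = c' := by
    have h4 : D.f (φ.f₀ 0) ≤ R' := by
      by_contra hcon
      exact H'.α_out _ (not_le.1 hcon).le G.base
    have h5 := hnear _ (mem_inner_of G G.base he) h4
    rw [G.base, pair_zero_left] at h5
    exact sub_eq_zero.1 h5
  refine ⟨fun p => u p - c', η, t', reg0.2 fun p => (reg0.1 hu.reg p).sub (S0.const c' p), hηs,
    hη, ht's, ht', fun p hp i => ?_, hnear, fun t ht => ?_⟩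
  · rw [H692.dbar0_sub (reg0.1 hu.reg p) (S0.const c' p), H692.dbar0_const, sub_zero, hue' p hp]
  · show u (φ.f₀ t) - c' = t
    rw [hliou t, hbase, stp_one (pow_lt_pow_left₀ hb2 hτ0.le (by norm_num))
      (pow_le_pow_left₀ (norm_nonneg _) ht 2), Complex.ofReal_one, one_mul]
    ring

end

end Coll

end Vale.Agent.P267.H739
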